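import Mathlib

/-!
The dyadic triangular Hilbert form of problem P075 (definitions used by the hand-in).
-/

open MeasureTheory

namespace Vale.Agent.P075Tri

/-- the dyadic interval `[2^k n, 2^k (n+1))` -/
def dyI (k : ℤ) (n : ℕ) : Set ℝ := Set.Ico ((2 : ℝ) ^ k * n) ((2 : ℝ) ^ k * (n + 1))

/-- indicator of the left half minus indicator of the right half -/
noncomputable def haar (k : ℤ) (n : ℕ) (x : ℝ) : ℝ :=
  (Set.Ico ((2 : ℝ) ^ k * n) ((2 : ℝ) ^ k * (n + 1 / 2))).indicator (fun _ => (1 : ℝ)) x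
    - (Set.Ico ((2 : ℝ) ^ k * (n + 1 / 2)) ((2 : ℝ) ^ k * (n + 1))).indicator (fun _ => (1 : ℝ)) x

/-- index triples with XOR zero -/
def Triples : Type := {t : ℕ × ℕ × ℕ // t.1 ^^^ t.2.1 ^^^ t.2.2 = 0}

/-- the form of one triple of intervals at scale `k` -/
noncomputable def triForm (k : ℤ) (t : Triples) (F₀ F₁ F₂ : ℝ × ℝ → ℝ) : ℝ :=
  ((2 : ℝ) ^ k)⁻¹ * ∫ x in dyI k t.1.1 ×ˢ dyI k t.1.2.1 ×ˢ dyI k t.1.2.2,
    F₀ (x.1, x.2.1) * F₁ (x.2.1, x.2.2) * F₂ (x.2.2, x.1)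
      * (haar k t.1.1 x.1 * haar k t.1.2.1 x.2.1 * haar k t.1.2.2 x.2.2)

/-- the dyadic triangular form with coefficients -/
noncomputable def form (S : Finset ℤ) (eps : ℤ → ℝ) (F₀ F₁ F₂ : ℝ × ℝ → ℝ) : ℝ :=
  ∑ k ∈ S, eps k * ∑' t : Triples, triForm k t F₀ F₁ F₂

/-- the `L³` norm on the closed quadrant -/
noncomputable def norm3 (F : ℝ × ℝ → ℝ) : ℝ :=
  (∫ x in Set.Ici (0 : ℝ) ×ˢ Set.Ici (0 : ℝ), |F x| ^ 3) ^ (1 / 3 : ℝ)

end Vale.Agent.P075Tri
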