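import Vale.Agent.P075Tri.Step
import Vale.Agent.P075Tri.Defs

/-!
Integrals of step functions on dyadic cells (helper file for P075).
-/

open MeasureTheory

namespace Vale.Agent.P075Tri

lemma floor_on_cell {u : ℝ} (hu : 0 < u) (n : ℕ) {x : ℝ}
    (hx : x ∈ Set.Ico ((n : ℝ) * u) (((n : ℝ) + 1) * u)) : ⌊x / u⌋₊ = n := by
  rw [Nat.floor_eq_iff (div_nonneg (le_trans (mul_nonneg n.cast_nonneg hu.le) hx.1) hu.le)]
  exact ⟨(le_div_iff₀ hu).mpr hx.1, (div_lt_iff₀ hu).mpr hx.2⟩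

lemma int_floor {u : ℝ} (hu : 0 < u) (f : ℕ → ℝ) (i : ℕ) (N : ℕ) :
    IntegrableOn (fun x => f ⌊x / u⌋₊) (Set.Ico ((i : ℝ) * u) (((i : ℝ) + N) * u)) ∧
    ∫ x in Set.Ico ((i : ℝ) * u) (((i : ℝ) + N) * u), f ⌊x / u⌋₊
      = u * ∑ j ∈ Finset.range N, f (i + j) := by
  induction N with
  | zero => simp
  | succ N ih =>
    set A := Set.Ico ((i : ℝ) * u) (((i : ℝ) + N) * u) with hA
    set B := Set.Ico (((i + N : ℕ) : ℝ) * u) ((((i + N : ℕ) : ℝ) + 1) * u) with hB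
    have hU : Set.Ico ((i : ℝ) * u) (((i : ℝ) + (N + 1 : ℕ)) * u) = A ∪ B := by
      rw [hA, hB]
      push_cast
      rw [Set.Ico_union_Ico_eq_Ico]
      · congr 1; push_cast; ring
      · nlinarith [mul_nonneg (Nat.cast_nonneg (α := ℝ) N) hu.le]
      · nlinarith
    have hc : Set.EqOn (fun x => f ⌊x / u⌋₊) (fun _ => f (i + N)) B := fun x hx => by
      simp [floor_on_cell hu (i + N) hx]
    have hBfin : volume B ≠ ⊤ := by rw [hB, Real.volume_Ico]; exact ENNReal.ofReal_ne_top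
    have hIB : IntegrableOn (fun x => f ⌊x / u⌋₊) B :=
      (integrableOn_const hBfin).congr_fun hc.symm measurableSet_Ico
    have hd : Disjoint A B := by
      rw [hA, hB, Set.disjoint_left]
      intro x h1 h2
      push_cast at h2
      linarith [h1.2, h2.1]
    refine ⟨by rw [hU]; exact ih.1.union hIB, ?_⟩
    rw [hU, setIntegral_union hd measurableSet_Ico ih.1 hIB, ih.2,
      setIntegral_congr_fun measurableSet_Ico hc, setIntegral_const, Real.volume_real_Ico,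
      Finset.sum_range_succ, smul_eq_mul]
    rw [max_eq_left (by nlinarith)]
    ring

lemma int_floor2 {u : ℝ} (hu : 0 < u) (f : ℕ → ℕ → ℝ) (i i' N N' : ℕ)
    (hf : ∃ B, ∀ x y, |f x y| ≤ B) :
    ∫ x in Set.Ico ((i : ℝ) * u) (((i : ℝ) + N) * u) ×ˢ
        Set.Ico ((i' : ℝ) * u) (((i' : ℝ) + N') * u), f ⌊x.1 / u⌋₊ ⌊x.2 / u⌋₊
      = u * ∑ j ∈ Finset.range N, u * ∑ j' ∈ Finset.range N', f (i + j) (i' + j') := by
  obtain ⟨B, hB⟩ := hf
  rw [Measure.volume_eq_prod, setIntegral_prod]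
  · have e : ∀ x : ℝ, ∫ y in Set.Ico ((i' : ℝ) * u) (((i' : ℝ) + N') * u),
        f ⌊x / u⌋₊ ⌊y / u⌋₊ = u * ∑ j' ∈ Finset.range N', f ⌊x / u⌋₊ (i' + j') :=
      fun x => (int_floor hu (f ⌊x / u⌋₊) i' N').2
    simp_rw [e]
    exact (int_floor hu (fun a => u * ∑ j' ∈ Finset.range N', f a (i' + j')) i N).2
  · have hm : Measurable (fun x : ℝ × ℝ => f ⌊x.1 / u⌋₊ ⌊x.2 / u⌋₊) :=
      (measurable_of_countable (fun p : ℕ × ℕ => f p.1 p.2)).comp
        ((Nat.measurable_floor.comp (measurable_fst.div_const u)).prodMk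
          (Nat.measurable_floor.comp (measurable_snd.div_const u)))
    refine Measure.integrableOn_of_bounded ?_ hm.aestronglyMeasurable (M := B) ?_
    · rw [Measure.prod_prod, Real.volume_Ico, Real.volume_Ico]
      exact ENNReal.mul_ne_top ENNReal.ofReal_ne_top ENNReal.ofReal_ne_top
    · exact Filter.Eventually.of_forall fun x => by rw [Real.norm_eq_abs]; exact hB _ _

lemma int_floor3 {u : ℝ} (hu : 0 < u) (f : ℕ → ℕ → ℕ → ℝ) (i i' i'' N : ℕ)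
    (hf : ∃ B, ∀ x y z, |f x y z| ≤ B) :
    ∫ x in Set.Ico ((i : ℝ) * u) (((i : ℝ) + N) * u) ×ˢ
        Set.Ico ((i' : ℝ) * u) (((i' : ℝ) + N) * u) ×ˢ
          Set.Ico ((i'' : ℝ) * u) (((i'' : ℝ) + N) * u),
        f ⌊x.1 / u⌋₊ ⌊x.2.1 / u⌋₊ ⌊x.2.2 / u⌋₊
      = u ^ 3 * ∑ j ∈ Finset.range N, ∑ j' ∈ Finset.range N, ∑ j'' ∈ Finset.range N,
          f (i + j) (i' + j') (i'' + j'') := by
  obtain ⟨B, hB⟩ := hf
  rw [Measure.volume_eq_prod, setIntegral_prod]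
  · have e : ∀ x : ℝ, ∫ y in Set.Ico ((i' : ℝ) * u) (((i' : ℝ) + N) * u) ×ˢ
          Set.Ico ((i'' : ℝ) * u) (((i'' : ℝ) + N) * u),
        f ⌊x / u⌋₊ ⌊y.1 / u⌋₊ ⌊y.2 / u⌋₊
          = u * ∑ j' ∈ Finset.range N, u * ∑ j'' ∈ Finset.range N,
            f ⌊x / u⌋₊ (i' + j') (i'' + j'') :=
      fun x => int_floor2 hu (f ⌊x / u⌋₊) i' i'' N N ⟨B, hB _⟩
    simp_rw [e]
    rw [(int_floor hu (fun a => u * ∑ j' ∈ Finset.range N, u * ∑ j'' ∈ Finset.range N,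
      f a (i' + j') (i'' + j'')) i N).2]
    simp only [Finset.mul_sum]
    exact Finset.sum_congr rfl fun _ _ => Finset.sum_congr rfl fun _ _ =>
      Finset.sum_congr rfl fun _ _ => by ring
  · have hm : Measurable (fun x : ℝ × ℝ × ℝ => f ⌊x.1 / u⌋₊ ⌊x.2.1 / u⌋₊ ⌊x.2.2 / u⌋₊) :=
      (measurable_of_countable (fun p : ℕ × ℕ × ℕ => f p.1 p.2.1 p.2.2)).comp
        ((Nat.measurable_floor.comp (measurable_fst.div_const u)).prodMk
          ((Nat.measurable_floor.comp (measurable_snd.fst.div_const u)).prodMk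
            (Nat.measurable_floor.comp (measurable_snd.snd.div_const u))))
    refine Measure.integrableOn_of_bounded ?_ hm.aestronglyMeasurable (M := B) ?_
    · rw [Measure.prod_prod, Measure.volume_eq_prod, Measure.prod_prod, Real.volume_Ico,
        Real.volume_Ico, Real.volume_Ico]
      exact ENNReal.mul_ne_top ENNReal.ofReal_ne_top
        (ENNReal.mul_ne_top ENNReal.ofReal_ne_top ENNReal.ofReal_ne_top)
    · exact Filter.Eventually.of_forall fun x => by rw [Real.norm_eq_abs]; exact hB _ _ _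

/-- step function with values `c` on cells of side `u` -/
noncomputable def stepFn (u : ℝ) (c : ℕ → ℕ → ℝ) (x : ℝ × ℝ) : ℝ := c ⌊x.1 / u⌋₊ ⌊x.2 / u⌋₊

lemma sum_V : ∀ (l : ℕ) (f : ℕ → ℝ), ∑ v : V l, f (val l v) = ∑ i ∈ Finset.range (2 ^ l), f i
  | 0, f => by
    show ∑ v : Unit, f (val 0 v) = _
    simp [val]
  | l + 1, f => by
    show ∑ v : Bool × V l, f (val (l + 1) v) = _
    rw [Fintype.sum_prod_type, Fintype.sum_bool, pow_succ, mul_two, Finset.sum_range_add]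
    simp only [val, if_true, Bool.false_eq_true, if_false, zero_add]
    rw [sum_V l f, sum_V l (fun i => f (2 ^ l + i))]
    ring

lemma val_lt : ∀ (l : ℕ) (v : V l), val l v < 2 ^ l
  | 0, _ => by simp [val]
  | l + 1, v => by
    have := val_lt l v.2
    rw [pow_succ]
    simp only [val]
    split_ifs <;> omega

lemma hs_eq (l : ℕ) (v : V (l + 1)) :
    hs (l + 1) v = if val (l + 1) v < 2 ^ l then 1 else -1 := by
  have h := val_lt l v.2
  obtain ⟨b, w⟩ := v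
  cases b <;> simp [hs, sgn, val] at h ⊢
  intro h2
  omega

lemma trace_expand {n : Type} [Fintype n] [DecidableEq n] (A B C : Matrix n n ℝ) (h : n → ℝ) :
    Matrix.trace (A * Matrix.diagonal h * B * Matrix.diagonal h * C * Matrix.diagonal h)
      = ∑ x, ∑ y, ∑ z, A x y * B y z * C z x * (h x * h y * h z) := by
  simp only [Matrix.trace, Matrix.diag, Matrix.mul_apply (N := C), Matrix.mul_diagonal]
  apply Finset.sum_congr rfl
  intro x _
  simp only [Matrix.mul_apply (N := B), Matrix.mul_diagonal, Finset.sum_mul]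
  rw [Finset.sum_comm]
  exact Finset.sum_congr rfl fun y _ => Finset.sum_congr rfl fun z _ => by ring

/-- sign of a cell within a block -/
def isg (l i : ℕ) : ℝ := if i < 2 ^ l then 1 else -1

lemma term_eq (c₀ c₁ c₂ : ℕ → ℕ → ℝ) (l a b : ℕ) :
    term c₀ c₁ c₂ (l + 1) a b = ∑ x ∈ Finset.range (2 ^ (l + 1)), ∑ y ∈ Finset.range (2 ^ (l + 1)),
      ∑ z ∈ Finset.range (2 ^ (l + 1)),
        c₀ (a * 2 ^ (l + 1) + x) (b * 2 ^ (l + 1) + y)
          * c₁ (b * 2 ^ (l + 1) + y) ((a ^^^ b) * 2 ^ (l + 1) + z)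
          * c₂ ((a ^^^ b) * 2 ^ (l + 1) + z) (a * 2 ^ (l + 1) + x)
          * (isg l x * isg l y * isg l z) := by
  rw [term, trace_expand]
  simp_rw [hs_eq]
  rw [← sum_V (l + 1)]
  refine Finset.sum_congr rfl fun x _ => ?_
  rw [← sum_V (l + 1)]
  refine Finset.sum_congr rfl fun y _ => ?_
  rw [← sum_V (l + 1)]
  exact Finset.sum_congr rfl fun z _ => rfl

lemma haar_cell (K : ℤ) (l a : ℕ) {x : ℝ} (hx : x ∈ dyI (K + (l + 1 : ℕ)) a) :
    haar (K + (l + 1 : ℕ)) a x = isg l (⌊x / (2 : ℝ) ^ K⌋₊ - a * 2 ^ (l + 1)) := by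
  set u : ℝ := (2 : ℝ) ^ K with hu
  have hu0 : 0 < u := by positivity
  have hk : (2 : ℝ) ^ (K + (l + 1 : ℕ)) = u * 2 ^ (l + 1) := by
    rw [zpow_add₀ two_ne_zero, zpow_natCast]
  obtain ⟨h1, h2⟩ := hx
  rw [hk] at h1 h2
  have hx0 : 0 ≤ x := le_trans (by positivity) h1
  have hge : a * 2 ^ (l + 1) ≤ ⌊x / u⌋₊ := by
    rw [Nat.le_floor_iff (div_nonneg hx0 hu0.le), le_div_iff₀ hu0]
    push_cast
    linarith
  have key : ⌊x / u⌋₊ - a * 2 ^ (l + 1) < 2 ^ l ↔ x < u * 2 ^ (l + 1) * (a + 1 / 2) := by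
    rw [tsub_lt_iff_left hge, Nat.floor_lt (div_nonneg hx0 hu0.le), div_lt_iff₀ hu0]
    push_cast
    rw [show ((a : ℝ) * 2 ^ (l + 1) + 2 ^ l) * u = u * 2 ^ (l + 1) * (a + 1 / 2) by ring]
  rw [haar, hk]
  by_cases h : x < u * 2 ^ (l + 1) * (a + 1 / 2)
  · rw [isg, if_pos (key.mpr h),
      Set.indicator_of_mem (show x ∈ Set.Ico _ _ from ⟨h1, h⟩),
      Set.indicator_of_notMem (fun hh => not_le.mpr h hh.1)]
    ring
  · rw [isg, if_neg (fun hh => h (key.mp hh)),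
      Set.indicator_of_notMem (fun hh => h hh.2),
      Set.indicator_of_mem (show x ∈ Set.Ico _ _ from ⟨not_lt.mp h, h2⟩)]
    ring

lemma dyI_eq (K : ℤ) (l a : ℕ) :
    dyI (K + (l : ℤ)) a = Set.Ico (((a * 2 ^ l : ℕ) : ℝ) * (2 : ℝ) ^ K)
      ((((a * 2 ^ l : ℕ) : ℝ) + ((2 ^ l : ℕ) : ℝ)) * (2 : ℝ) ^ K) := by
  rw [dyI, zpow_add₀ two_ne_zero, zpow_natCast]
  push_cast
  congr 1 <;> ring

lemma triForm_step (K : ℤ) (l : ℕ) (t : Triples) (c₀ c₁ c₂ : ℕ → ℕ → ℝ) {B : ℝ}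
    (h₀ : ∀ i j, |c₀ i j| ≤ B) (h₁ : ∀ i j, |c₁ i j| ≤ B) (h₂ : ∀ i j, |c₂ i j| ≤ B) :
    triForm (K + (l + 1 : ℕ)) t (stepFn ((2 : ℝ) ^ K) c₀) (stepFn ((2 : ℝ) ^ K) c₁)
      (stepFn ((2 : ℝ) ^ K) c₂)
      = ((2 : ℝ) ^ K) ^ 2 * (((2 : ℝ) ^ (l + 1))⁻¹ * term c₀ c₁ c₂ (l + 1) t.1.1 t.1.2.1) := by
  obtain ⟨⟨a, b, c⟩, ht⟩ := t
  have hc : c = a ^^^ b := by
    have := congrArg (fun n => n ^^^ c) ht
    simpa [Nat.xor_assoc] using this.symm
  subst hc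
  set u : ℝ := (2 : ℝ) ^ K with hu
  have hu0 : 0 < u := by positivity
  have hB : 0 ≤ B := le_trans (abs_nonneg _) (h₀ 0 0)
  let f : ℕ → ℕ → ℕ → ℝ := fun x y z => c₀ x y * c₁ y z * c₂ z x *
    (isg l (x - a * 2 ^ (l + 1)) * isg l (y - b * 2 ^ (l + 1))
      * isg l (z - (a ^^^ b) * 2 ^ (l + 1)))
  have habs : ∀ l i, |isg l i| = 1 := fun l i => by unfold isg; split_ifs <;> simp
  have hfb : ∃ D, ∀ x y z, |f x y z| ≤ D := ⟨B * B * B, fun x y z => by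
    simp only [f, abs_mul, habs, mul_one]
    exact mul_le_mul (mul_le_mul (h₀ _ _) (h₁ _ _) (abs_nonneg _) hB) (h₂ _ _) (abs_nonneg _)
      (mul_nonneg hB hB)⟩
  have hmeas : MeasurableSet (dyI (K + (l + 1 : ℕ)) a ×ˢ dyI (K + (l + 1 : ℕ)) b ×ˢ
      dyI (K + (l + 1 : ℕ)) (a ^^^ b)) :=
    measurableSet_Ico.prod (measurableSet_Ico.prod measurableSet_Ico)
  unfold triForm
  simp only
  rw [setIntegral_congr_fun hmeas (g := fun x => f ⌊x.1 / u⌋₊ ⌊x.2.1 / u⌋₊ ⌊x.2.2 / u⌋₊)]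
  · rw [dyI_eq, dyI_eq, dyI_eq, int_floor3 hu0 f _ _ _ _ hfb, term_eq,
      zpow_add₀ two_ne_zero, zpow_natCast]
    simp only [f, Nat.add_sub_cancel_left]
    rw [← hu, mul_inv]
    field_simp
  · intro x hx
    simp only [f, stepFn]
    rw [haar_cell K l a hx.1, haar_cell K l b hx.2.1, haar_cell K l (a ^^^ b) hx.2.2]

end Vale.Agent.P075Tri
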