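import Vale.Agent.P075Tri.Cells

/-!
From step functions to bounded compactly supported functions (helper file for P075).
-/

open MeasureTheory Filter Topology

namespace Vale.Agent.P075Tri

/-- mesh width -/
noncomputable def mesh (J : ℕ) : ℝ := (2 : ℝ) ^ (-(J : ℤ))

lemma mesh_pos (J : ℕ) : 0 < mesh J := by unfold mesh; positivity

/-- cell averages -/
noncomputable def avg (F : ℝ × ℝ → ℝ) (J : ℕ) (i j : ℕ) : ℝ :=
  (mesh J * mesh J)⁻¹ * ∫ x in Set.Ico ((i : ℝ) * mesh J) (((i : ℝ) + 1) * mesh J) ×ˢ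
    Set.Ico ((j : ℝ) * mesh J) (((j : ℝ) + 1) * mesh J), F x

/-- dyadic approximation -/
noncomputable def appr (F : ℝ × ℝ → ℝ) (J : ℕ) : ℝ × ℝ → ℝ := stepFn (mesh J) (avg F J)

lemma avg_bound {F : ℝ × ℝ → ℝ} {B : ℝ} (hB : ∀ x, |F x| ≤ B) (J i j : ℕ) :
    |avg F J i j| ≤ B := by
  have hu := mesh_pos J
  set u := mesh J
  set s := Set.Ico ((i : ℝ) * u) (((i : ℝ) + 1) * u) ×ˢ Set.Ico ((j : ℝ) * u) (((j : ℝ) + 1) * u)
  have hs : volume s < ⊤ := by
    rw [Measure.volume_eq_prod, Measure.prod_prod, Real.volume_Ico, Real.volume_Ico]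
    exact ENNReal.mul_lt_top ENNReal.ofReal_lt_top ENNReal.ofReal_lt_top
  have hr : volume.real s = u * u := by
    rw [Measure.volume_eq_prod, measureReal_prod_prod, Real.volume_real_Ico, Real.volume_real_Ico]
    rw [max_eq_left (by nlinarith), max_eq_left (by nlinarith)]
    ring
  have h := norm_setIntegral_le_of_norm_le_const (f := F) hs (fun x _ => (Real.norm_eq_abs _).trans_le (hB x))
  rw [Real.norm_eq_abs, hr] at h
  rw [avg, abs_mul, abs_of_pos (by positivity : 0 < (u * u)⁻¹), inv_mul_le_iff₀ (by positivity)]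
  linarith

lemma stepFn_meas (u : ℝ) (c : ℕ → ℕ → ℝ) : Measurable (stepFn u c) := by
  have h1 : Measurable (fun x : ℝ × ℝ => (⌊x.1 / u⌋₊, ⌊x.2 / u⌋₊)) :=
    (Nat.measurable_floor.comp (measurable_fst.div_const u)).prodMk
      (Nat.measurable_floor.comp (measurable_snd.div_const u))
  exact (measurable_of_countable (fun p : ℕ × ℕ => c p.1 p.2)).comp h1

lemma appr_meas (F : ℝ × ℝ → ℝ) (J : ℕ) : Measurable (appr F J) :=
  stepFn_meas (mesh J) (avg F J)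

lemma ae_appr {F : ℝ × ℝ → ℝ} (hF : LocallyIntegrable F volume) :
    ∀ᵐ x : ℝ × ℝ ∂volume, 0 ≤ x.1 → 0 ≤ x.2 →
      Tendsto (fun J => appr F J x) atTop (𝓝 (F x)) := by
  filter_upwards [IsUnifLocDoublingMeasure.ae_tendsto_average (μ := volume) hF 1] with x hx h1 h2
  let w : ℕ → ℝ × ℝ := fun J => (((⌊x.1 / mesh J⌋₊ : ℝ) + 1 / 2) * mesh J,
    ((⌊x.2 / mesh J⌋₊ : ℝ) + 1 / 2) * mesh J)
  let δ : ℕ → ℝ := fun J => mesh J / 2
  have hδ : Tendsto δ atTop (𝓝[>] 0) := by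
    refine tendsto_nhdsWithin_iff.mpr ⟨?_, Eventually.of_forall fun J => half_pos (mesh_pos J)⟩
    have h := (tendsto_pow_atTop_nhds_zero_of_lt_one (r := (2 : ℝ)⁻¹) (by norm_num)
      (by norm_num)).div_const 2
    rw [zero_div] at h
    convert h using 2 with J
    simp [δ, mesh, zpow_neg, inv_pow]
  have hball : ∀ J, Metric.closedBall (w J) (δ J)
      = Set.Icc ((⌊x.1 / mesh J⌋₊ : ℝ) * mesh J) (((⌊x.1 / mesh J⌋₊ : ℝ) + 1) * mesh J) ×ˢ
        Set.Icc ((⌊x.2 / mesh J⌋₊ : ℝ) * mesh J) (((⌊x.2 / mesh J⌋₊ : ℝ) + 1) * mesh J) := by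
    intro J
    rw [← closedBall_prod_same, Real.closedBall_eq_Icc, Real.closedBall_eq_Icc]
    simp only [δ]
    congr 2 <;> ring
  have hmem : ∀ J, x ∈ Metric.closedBall (w J) (1 * δ J) := by
    intro J
    have hu := mesh_pos J
    rw [one_mul, hball]
    refine ⟨⟨?_, ?_⟩, ⟨?_, ?_⟩⟩
    · exact (le_div_iff₀ hu).mp (Nat.floor_le (div_nonneg h1 hu.le))
    · exact ((div_lt_iff₀ hu).mp (Nat.lt_floor_add_one _)).le
    · exact (le_div_iff₀ hu).mp (Nat.floor_le (div_nonneg h2 hu.le))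
    · exact ((div_lt_iff₀ hu).mp (Nat.lt_floor_add_one _)).le
  refine (hx w δ hδ (Eventually.of_forall hmem)).congr fun J => ?_
  have hu := mesh_pos J
  rw [hball, setAverage_eq, Measure.volume_eq_prod, measureReal_prod_prod, Real.volume_real_Icc,
    Real.volume_real_Icc, smul_eq_mul]
  rw [appr, stepFn, avg, Measure.volume_eq_prod,
    setIntegral_congr_set (Measure.set_prod_ae_eq Ico_ae_eq_Icc Ico_ae_eq_Icc)]
  rw [max_eq_left (by nlinarith), max_eq_left (by nlinarith)]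
  congr 2
  ring

/-- the box `[0, 2^P)²` -/
def box (P : ℕ) : Set (ℝ × ℝ) := Set.Ico (0 : ℝ) (2 ^ P) ×ˢ Set.Ico (0 : ℝ) (2 ^ P)

lemma box_integral (P J : ℕ) (c : ℕ → ℕ → ℝ) {B : ℝ} (hB : ∀ i j, |c i j| ≤ B) :
    ∫ x in box P, |stepFn (mesh J) c x| ^ 3 = mesh J ^ 2 *
      ∑ i ∈ Finset.range (2 ^ (P + J)), ∑ j ∈ Finset.range (2 ^ (P + J)), |c i j| ^ 3 := by
  have hu := mesh_pos J
  have h := int_floor2 hu (fun i j => |c i j| ^ 3) 0 0 (2 ^ (P + J)) (2 ^ (P + J))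
    ⟨B ^ 3, fun i j => by rw [abs_pow, abs_abs]; exact pow_le_pow_left₀ (abs_nonneg _) (hB i j) 3⟩
  have e : ((2 : ℝ) ^ (P + J)) * mesh J = 2 ^ P := by
    rw [mesh, zpow_neg, zpow_natCast, pow_add]; field_simp
  simp only [Nat.cast_zero, zero_mul, zero_add, Nat.cast_pow, Nat.cast_ofNat, e] at h
  rw [show box P = Set.Ico (0 : ℝ) (2 ^ P) ×ˢ Set.Ico (0 : ℝ) (2 ^ P) from rfl]
  simp only [stepFn]
  rw [h, Finset.mul_sum, Finset.mul_sum]
  refine Finset.sum_congr rfl fun i _ => ?_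
  ring

lemma box_measure (P : ℕ) : volume (box P) < ⊤ := by
  rw [box, Measure.volume_eq_prod, Measure.prod_prod, Real.volume_Ico]
  exact ENNReal.mul_lt_top ENNReal.ofReal_lt_top ENNReal.ofReal_lt_top

lemma locInt {F : ℝ × ℝ → ℝ} (hm : Measurable F) {B : ℝ} (hB : ∀ x, |F x| ≤ B) :
    LocallyIntegrable F volume :=
  (locallyIntegrable_const B).mono hm.aestronglyMeasurable
    (Eventually.of_forall fun x => by
      rw [Real.norm_eq_abs, Real.norm_eq_abs]; exact (hB x).trans (le_abs_self B))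

lemma box_tendsto {F : ℝ × ℝ → ℝ} (hm : Measurable F) {B : ℝ} (hB : ∀ x, |F x| ≤ B) (P : ℕ) :
    Tendsto (fun J => ∫ x in box P, |appr F J x| ^ 3) atTop (𝓝 (∫ x in box P, |F x| ^ 3)) := by
  have : Fact (volume (box P) < ⊤) := ⟨box_measure P⟩
  refine tendsto_integral_of_dominated_convergence (fun _ => B ^ 3) ?_ (integrable_const _) ?_ ?_
  · exact fun J => ((appr_meas F J).abs.pow_const 3).aestronglyMeasurable
  · intro J
    refine Eventually.of_forall fun x => ?_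
    rw [Real.norm_eq_abs, abs_pow, abs_abs]
    exact pow_le_pow_left₀ (abs_nonneg _) (avg_bound hB J _ _) 3
  · filter_upwards [ae_restrict_of_ae (ae_appr (locInt hm hB)),
      ae_restrict_mem (measurableSet_Ico.prod measurableSet_Ico)] with x hx hxb
    exact ((hx hxb.1.1 hxb.2.1).abs).pow 3

lemma dyI_nonneg {k : ℤ} {n : ℕ} {x : ℝ} (hx : x ∈ dyI k n) : 0 ≤ x :=
  le_trans (by positivity) hx.1

lemma haar_abs (k : ℤ) (n : ℕ) (x : ℝ) : |haar k n x| ≤ 2 := by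
  unfold haar
  by_cases h1 : x ∈ Set.Ico ((2 : ℝ) ^ k * n) ((2 : ℝ) ^ k * (n + 1 / 2)) <;>
    by_cases h2 : x ∈ Set.Ico ((2 : ℝ) ^ k * (n + 1 / 2)) ((2 : ℝ) ^ k * (n + 1)) <;>
    simp only [Set.indicator_of_mem, Set.indicator_of_notMem, h1, h2, not_false_eq_true] <;>
    norm_num

lemma haar_meas (k : ℤ) (n : ℕ) : Measurable (haar k n) :=
  (measurable_const.indicator measurableSet_Ico).sub (measurable_const.indicator measurableSet_Ico)

lemma triForm_tendsto {F₀ F₁ F₂ : ℝ × ℝ → ℝ} (m₀ : Measurable F₀) (m₁ : Measurable F₁)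
    (m₂ : Measurable F₂) {B : ℝ} (b₀ : ∀ x, |F₀ x| ≤ B) (b₁ : ∀ x, |F₁ x| ≤ B)
    (b₂ : ∀ x, |F₂ x| ≤ B) (k : ℤ) (t : Triples) :
    Tendsto (fun J => triForm k t (appr F₀ J) (appr F₁ J) (appr F₂ J)) atTop
      (𝓝 (triForm k t F₀ F₁ F₂)) := by
  unfold triForm
  refine Tendsto.const_mul _ ?_
  set s := dyI k t.1.1 ×ˢ dyI k t.1.2.1 ×ˢ dyI k t.1.2.2
  have hms : MeasurableSet s :=
    measurableSet_Ico.prod (measurableSet_Ico.prod measurableSet_Ico)
  have : Fact (volume s < ⊤) := ⟨by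
    simp only [s, dyI, Measure.volume_eq_prod, Measure.prod_prod, Real.volume_Ico]
    exact ENNReal.mul_lt_top ENNReal.ofReal_lt_top
      (ENNReal.mul_lt_top ENNReal.ofReal_lt_top ENNReal.ofReal_lt_top)⟩
  have q01 : Measure.QuasiMeasurePreserving (fun x : ℝ × ℝ × ℝ => (x.1, x.2.1)) volume volume :=
    MeasureTheory.QuasiMeasurePreserving.prodMap (Measure.QuasiMeasurePreserving.id volume)
      Measure.quasiMeasurePreserving_fst
  have q12 : Measure.QuasiMeasurePreserving (fun x : ℝ × ℝ × ℝ => (x.2.1, x.2.2)) volume volume :=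
    Measure.quasiMeasurePreserving_snd
  have q20 : Measure.QuasiMeasurePreserving (fun x : ℝ × ℝ × ℝ => (x.2.2, x.1)) volume volume := by
    exact (Measure.measurePreserving_swap).quasiMeasurePreserving.comp
      (MeasureTheory.QuasiMeasurePreserving.prodMap (Measure.QuasiMeasurePreserving.id volume)
        Measure.quasiMeasurePreserving_snd)
  have hB0 : 0 ≤ B := le_trans (abs_nonneg _) (b₀ 0)
  refine tendsto_integral_of_dominated_convergence (fun _ => B * B * B * (2 * 2 * 2)) ?_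
    (integrable_const _) ?_ ?_
  · intro J
    exact (((((appr_meas F₀ J).comp (measurable_fst.prodMk measurable_snd.fst)).mul
      ((appr_meas F₁ J).comp measurable_snd)).mul
        ((appr_meas F₂ J).comp (measurable_snd.snd.prodMk measurable_fst))).mul
          ((((haar_meas k _).comp measurable_fst).mul ((haar_meas k _).comp measurable_snd.fst)).mul
            ((haar_meas k _).comp measurable_snd.snd))).aestronglyMeasurable
  · intro J
    refine Eventually.of_forall fun x => ?_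
    simp only [Real.norm_eq_abs, abs_mul]
    refine mul_le_mul (mul_le_mul (mul_le_mul (avg_bound b₀ J _ _) (avg_bound b₁ J _ _)
      (abs_nonneg _) hB0) (avg_bound b₂ J _ _) (abs_nonneg _) (mul_nonneg hB0 hB0))
      (mul_le_mul (mul_le_mul (haar_abs _ _ _) (haar_abs _ _ _) (abs_nonneg _) zero_le_two)
        (haar_abs _ _ _) (abs_nonneg _) (by norm_num)) (by positivity) (by positivity)
  · filter_upwards [ae_restrict_of_ae (q01.ae (ae_appr (locInt m₀ b₀))),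
      ae_restrict_of_ae (q12.ae (ae_appr (locInt m₁ b₁))),
      ae_restrict_of_ae (q20.ae (ae_appr (locInt m₂ b₂))), ae_restrict_mem hms] with x h0 h1 h2 hx
    have p0 := dyI_nonneg hx.1
    have p1 := dyI_nonneg hx.2.1
    have p2 := dyI_nonneg hx.2.2
    exact (((h0 p0 p1).mul (h1 p1 p2)).mul (h2 p2 p0)).mul tendsto_const_nhds

/-- embedding of pairs into triples -/
def tripleEmb : ℕ × ℕ ↪ Triples :=
  ⟨fun p => ⟨(p.1, p.2, p.1 ^^^ p.2), Nat.xor_self _⟩, fun p q h => by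
    have h' := congrArg Subtype.val h
    simp only [Prod.mk.injEq] at h'
    exact Prod.ext h'.1 h'.2.1⟩

/-- the finitely many triples inside the box -/
def tFin (P : ℕ) (k : ℤ) : Finset Triples :=
  (Finset.range (2 ^ ((P : ℤ) - k).toNat) ×ˢ Finset.range (2 ^ ((P : ℤ) - k).toNat)).map tripleEmb

lemma triForm_zero {F₀ : ℝ × ℝ → ℝ} (F₁ F₂ : ℝ × ℝ → ℝ) {P : ℕ} {k : ℤ} (hk : k ≤ P)
    (hsupp : ∀ x : ℝ × ℝ, (2 : ℝ) ^ P ≤ x.1 ∨ (2 : ℝ) ^ P ≤ x.2 → F₀ x = 0)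
    {t : Triples} (ht : t ∉ tFin P k) : triForm k t F₀ F₁ F₂ = 0 := by
  set N := ((P : ℤ) - k).toNat with hN
  have hor : 2 ^ N ≤ t.1.1 ∨ 2 ^ N ≤ t.1.2.1 := by
    by_contra h
    push Not at h
    apply ht
    refine Finset.mem_map.mpr ⟨(t.1.1, t.1.2.1), Finset.mem_product.mpr
      ⟨Finset.mem_range.mpr h.1, Finset.mem_range.mpr h.2⟩, ?_⟩
    apply Subtype.ext
    have := congrArg (fun n => n ^^^ t.1.2.2) t.2
    simp only [Nat.xor_assoc, Nat.xor_self, Nat.xor_zero, Nat.zero_xor] at this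
    exact Prod.ext rfl (Prod.ext rfl this)
  have hP : (2 : ℝ) ^ P = (2 : ℝ) ^ k * ((2 ^ N : ℕ) : ℝ) := by
    rw [Nat.cast_pow, Nat.cast_ofNat, ← zpow_natCast, ← zpow_natCast, ← zpow_add₀ two_ne_zero]
    congr 1
    omega
  have hpos : (0 : ℝ) ≤ (2 : ℝ) ^ k := by positivity
  have hge : ∀ {n : ℕ} {x : ℝ}, 2 ^ N ≤ n → x ∈ dyI k n → (2 : ℝ) ^ P ≤ x := by
    intro n x hn hx
    rw [hP]
    exact (mul_le_mul_of_nonneg_left (Nat.cast_le.mpr hn) hpos).trans hx.1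
  unfold triForm
  rw [setIntegral_eq_zero_of_forall_eq_zero, mul_zero]
  intro x hx
  rw [hsupp (x.1, x.2.1) (hor.imp (fun h => hge h hx.1) (fun h => hge h hx.2.1))]
  ring

lemma step_bound (P J : ℕ) (S : Finset ℤ) (hS : ∀ k ∈ S, -(J : ℤ) < k ∧ k ≤ P)
    (c₀ c₁ c₂ : ℕ → ℕ → ℝ) {B : ℝ}
    (h₀ : ∀ i j, |c₀ i j| ≤ B) (h₁ : ∀ i j, |c₁ i j| ≤ B) (h₂ : ∀ i j, |c₂ i j| ≤ B) :
    ∑ k ∈ S, ∑ t ∈ tFin P k,
        |triForm k t (stepFn (mesh J) c₀) (stepFn (mesh J) c₁) (stepFn (mesh J) c₂)|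
      ≤ 64 * ((∫ x in box P, |stepFn (mesh J) c₀ x| ^ 3)
        + (∫ x in box P, |stepFn (mesh J) c₁ x| ^ 3)
        + ∫ x in box P, |stepFn (mesh J) c₂ x| ^ 3) := by
  set φ : ℤ → ℕ := fun k => (k + J - 1).toNat with hφ
  have hk : ∀ k ∈ S, k = -(J : ℤ) + ((φ k + 1 : ℕ) : ℤ) ∧ φ k < P + J ∧
      ((P : ℤ) - k).toNat = P + J - (φ k + 1) := by
    intro k hk
    have := hS k hk
    simp only [hφ]
    omega
  have e : ∀ k ∈ S, ∑ t ∈ tFin P k,
      |triForm k t (stepFn (mesh J) c₀) (stepFn (mesh J) c₁) (stepFn (mesh J) c₂)|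
        = mesh J ^ 2 * lev c₀ c₁ c₂ (φ k + 1) (P + J - (φ k + 1)) := by
    intro k hkS
    obtain ⟨e1, -, e3⟩ := hk k hkS
    rw [tFin, Finset.sum_map, e3, Finset.sum_product, lev, ← mul_assoc, Finset.mul_sum]
    refine Finset.sum_congr rfl fun a _ => ?_
    rw [Finset.mul_sum]
    refine Finset.sum_congr rfl fun b _ => ?_
    generalize φ k = l at e1
    subst e1
    rw [mesh, triForm_step (-(J : ℤ)) l (tripleEmb (a, b)) c₀ c₁ c₂ h₀ h₁ h₂, ← mul_assoc,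
      abs_mul, abs_of_nonneg (by positivity :
        0 ≤ ((2 : ℝ) ^ (-(J : ℤ))) ^ 2 * ((2 : ℝ) ^ (l + 1))⁻¹)]
    rfl
  rw [Finset.sum_congr rfl e, ← Finset.mul_sum, box_integral P J c₀ h₀, box_integral P J c₁ h₁,
    box_integral P J c₂ h₂, ← mul_add, ← mul_add, mul_left_comm]
  refine mul_le_mul_of_nonneg_left ?_ (sq_nonneg _)
  refine le_trans ?_ (finite_bound c₀ c₁ c₂ (P + J))
  have hinj : Set.InjOn φ S := by
    intro x hx y hy hxy
    rw [(hk x hx).1, (hk y hy).1, hxy]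
  rw [← Finset.sum_image (f := fun j => lev c₀ c₁ c₂ (j + 1) (P + J - (j + 1))) hinj]
  refine Finset.sum_le_sum_of_subset_of_nonneg ?_ fun j _ _ =>
    mul_nonneg (by positivity) (Finset.sum_nonneg fun _ _ => Finset.sum_nonneg fun _ _ => abs_nonneg _)
  intro j hj
  obtain ⟨k, hkS, rfl⟩ := Finset.mem_image.mp hj
  exact Finset.mem_range.mpr (hk k hkS).2.1

lemma box_bound {F₀ F₁ F₂ : ℝ × ℝ → ℝ} (m₀ : Measurable F₀) (m₁ : Measurable F₁)
    (m₂ : Measurable F₂) {B : ℝ} (b₀ : ∀ x, |F₀ x| ≤ B) (b₁ : ∀ x, |F₁ x| ≤ B)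
    (b₂ : ∀ x, |F₂ x| ≤ B) (P : ℕ) (S : Finset ℤ) (hS : ∀ k ∈ S, k ≤ P) :
    ∑ k ∈ S, ∑ t ∈ tFin P k, |triForm k t F₀ F₁ F₂|
      ≤ 64 * ((∫ x in box P, |F₀ x| ^ 3) + (∫ x in box P, |F₁ x| ^ 3)
        + ∫ x in box P, |F₂ x| ^ 3) := by
  refine le_of_tendsto_of_tendsto
    (tendsto_finsetSum S fun k _ => tendsto_finsetSum (tFin P k) fun t _ =>
      (triForm_tendsto m₀ m₁ m₂ b₀ b₁ b₂ k t).abs)
    ((((box_tendsto m₀ b₀ P).add (box_tendsto m₁ b₁ P)).add (box_tendsto m₂ b₂ P)).const_mul 64) ?_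
  have hev : ∀ᶠ J : ℕ in atTop, ∀ k ∈ S, -(J : ℤ) < k := by
    rw [eventually_all_finset]
    intro k _
    filter_upwards [eventually_gt_atTop (-k).toNat] with J hJ
    omega
  filter_upwards [hev] with J hJ
  exact step_bound P J S (fun k hk => ⟨hJ k hk, hS k hk⟩) _ _ _
    (avg_bound b₀ J) (avg_bound b₁ J) (avg_bound b₂ J)

end Vale.Agent.P075Tri
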