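import Vale.Agent.P075Tri.Limit

/-!
The uniform bound for the dyadic triangular form (helper file for P075).
-/

open MeasureTheory Filter Topology

namespace Vale.Agent.P075Tri

lemma triForm_smul (k : ℤ) (t : Triples) (F₀ F₁ F₂ : ℝ × ℝ → ℝ) (a b c : ℝ) :
    triForm k t (fun x => a * F₀ x) (fun x => b * F₁ x) (fun x => c * F₂ x)
      = a * b * c * triForm k t F₀ F₁ F₂ := by
  unfold triForm
  rw [mul_left_comm (a * b * c), ← integral_const_mul]
  simp only [← integral_const_mul]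
  congr 1
  funext x
  ring

lemma exists_box {F : ℝ × ℝ → ℝ} (hc : HasCompactSupport F) :
    ∃ r : ℝ, ∀ x : ℝ × ℝ, r ≤ x.1 ∨ r ≤ x.2 → F x = 0 := by
  obtain ⟨R, hR⟩ := hc.isCompact.isBounded.subset_closedBall (0 : ℝ × ℝ)
  refine ⟨R + 1, fun x hx => image_eq_zero_of_notMem_tsupport fun hm => ?_⟩
  have := hR hm
  rw [Metric.mem_closedBall, dist_zero_right, Prod.norm_def, max_le_iff, Real.norm_eq_abs,
    Real.norm_eq_abs] at this
  rcases hx with h | h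
  · linarith [le_abs_self x.1, this.1]
  · linarith [le_abs_self x.2, this.2]

lemma pow3_integrableOn {F : ℝ × ℝ → ℝ} (hm : Measurable F) (hb : ∃ B, ∀ x, |F x| ≤ B)
    (hc : HasCompactSupport F) (s : Set (ℝ × ℝ)) :
    IntegrableOn (fun x => |F x| ^ 3) s := by
  obtain ⟨B, hB⟩ := hb
  refine Integrable.integrableOn ?_
  refine (integrableOn_iff_integrable_of_support_subset (s := tsupport F) ?_).mp
    (Measure.integrableOn_of_bounded (hc.isCompact.measure_lt_top).ne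
      (hm.abs.pow_const 3).aestronglyMeasurable (M := B ^ 3) ?_)
  · intro x hx
    by_contra h
    exact hx (by simp [image_eq_zero_of_notMem_tsupport h])
  · exact Eventually.of_forall fun x => by
      rw [Real.norm_eq_abs, abs_pow, abs_abs]
      exact pow_le_pow_left₀ (abs_nonneg _) (hB x) 3

lemma norm3_nonneg (F : ℝ × ℝ → ℝ) : 0 ≤ norm3 F :=
  Real.rpow_nonneg (integral_nonneg fun _ => by positivity) _

lemma norm3_cube (F : ℝ × ℝ → ℝ) :
    norm3 F ^ 3 = ∫ x in Set.Ici (0 : ℝ) ×ˢ Set.Ici (0 : ℝ), |F x| ^ 3 := by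
  rw [norm3, ← Real.rpow_natCast (_ ^ (1 / 3 : ℝ)) 3, ← Real.rpow_mul
    (integral_nonneg fun _ => by positivity)]
  norm_num

lemma scaled_cube_le (F : ℝ × ℝ → ℝ) {d : ℝ} (hd : 0 < d) :
    ∫ x in Set.Ici (0 : ℝ) ×ˢ Set.Ici (0 : ℝ), |(norm3 F + d)⁻¹ * F x| ^ 3 ≤ 1 := by
  have h0 := norm3_nonneg F
  have ht : 0 < norm3 F + d := by linarith
  have e : ∀ x, |(norm3 F + d)⁻¹ * F x| ^ 3 = (norm3 F + d)⁻¹ ^ 3 * |F x| ^ 3 := fun x => by
    rw [abs_mul, mul_pow, abs_of_pos (inv_pos.mpr ht)]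
  simp_rw [e]
  rw [integral_const_mul, ← norm3_cube, ← mul_pow]
  refine pow_le_one₀ (by positivity) ?_
  rw [inv_mul_le_iff₀ ht]
  linarith

variable {F₀ F₁ F₂ : ℝ × ℝ → ℝ}

/-- summability at each scale -/
lemma triForm_summable (hc₀ : HasCompactSupport F₀) (k : ℤ) :
    Summable (fun t : Triples => |triForm k t F₀ F₁ F₂|) := by
  obtain ⟨r, hr⟩ := exists_box hc₀
  obtain ⟨P, hP⟩ := pow_unbounded_of_one_lt (max r ((2 : ℝ) ^ k.toNat)) (one_lt_two (α := ℝ))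
  have h1 : k.toNat ≤ P := by
    have := (pow_lt_pow_iff_right₀ (one_lt_two (α := ℝ))).mp ((le_max_right _ _).trans_lt hP)
    omega
  refine summable_of_ne_finset_zero (s := tFin P k) fun t ht => ?_
  rw [triForm_zero F₁ F₂ (by omega) (fun x hx => hr x (hx.imp
    (fun h => ((le_max_left _ _).trans hP.le).trans h)
    (fun h => ((le_max_left _ _).trans hP.le).trans h))) ht, abs_zero]

/-- the main estimate -/
theorem abs_bound (m₀ : Measurable F₀) (m₁ : Measurable F₁) (m₂ : Measurable F₂)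
    (b₀ : ∃ B, ∀ x, |F₀ x| ≤ B) (b₁ : ∃ B, ∀ x, |F₁ x| ≤ B) (b₂ : ∃ B, ∀ x, |F₂ x| ≤ B)
    (c₀ : HasCompactSupport F₀) (c₁ : HasCompactSupport F₁) (c₂ : HasCompactSupport F₂)
    (S : Finset ℤ) :
    ∑ k ∈ S, ∑' t : Triples, |triForm k t F₀ F₁ F₂|
      ≤ 192 * norm3 F₀ * norm3 F₁ * norm3 F₂ := by
  obtain ⟨r, hr⟩ := exists_box c₀
  obtain ⟨P, hP⟩ := pow_unbounded_of_one_lt (max r ((2 : ℝ) ^ (S.sup Int.toNat)))
    (one_lt_two (α := ℝ))
  have hSP : ∀ k ∈ S, k ≤ (P : ℤ) := by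
    intro k hk
    have h1 := (pow_lt_pow_iff_right₀ (one_lt_two (α := ℝ))).mp ((le_max_right _ _).trans_lt hP)
    have h2 := Finset.le_sup (f := Int.toNat) hk
    omega
  set X := ∑ k ∈ S, ∑ t ∈ tFin P k, |triForm k t F₀ F₁ F₂| with hX
  have e : ∑ k ∈ S, ∑' t : Triples, |triForm k t F₀ F₁ F₂| = X := by
    refine Finset.sum_congr rfl fun k hk => tsum_eq_sum fun t ht => ?_
    rw [triForm_zero F₁ F₂ (hSP k hk) (fun x hx => hr x (hx.imp
      (fun h => ((le_max_left _ _).trans hP.le).trans h)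
      (fun h => ((le_max_left _ _).trans hP.le).trans h))) ht, abs_zero]
  rw [e]
  obtain ⟨B₀, hB₀⟩ := b₀
  obtain ⟨B₁, hB₁⟩ := b₁
  obtain ⟨B₂, hB₂⟩ := b₂
  have key : ∀ d : ℝ, 0 < d →
      X ≤ 192 * ((norm3 F₀ + d) * (norm3 F₁ + d) * (norm3 F₂ + d)) := by
    intro d hd
    have p₀ : 0 < norm3 F₀ + d := by linarith [norm3_nonneg F₀]
    have p₁ : 0 < norm3 F₁ + d := by linarith [norm3_nonneg F₁]
    have p₂ : 0 < norm3 F₂ + d := by linarith [norm3_nonneg F₂]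
    set s₀ := (norm3 F₀ + d)⁻¹
    set s₁ := (norm3 F₁ + d)⁻¹
    set s₂ := (norm3 F₂ + d)⁻¹
    set B := |s₀| * |B₀| + |s₁| * |B₁| + |s₂| * |B₂|
    have hn : 0 ≤ |s₀| * |B₀| ∧ 0 ≤ |s₁| * |B₁| ∧ 0 ≤ |s₂| * |B₂| :=
      ⟨by positivity, by positivity, by positivity⟩
    have hb : ∀ (s C : ℝ) (G : ℝ × ℝ → ℝ), (∀ x, |G x| ≤ C) → |s| * |C| ≤ B →
        ∀ x, |s * G x| ≤ B := fun s C G hG hle x => by
      rw [abs_mul]
      exact (mul_le_mul_of_nonneg_left ((hG x).trans (le_abs_self C)) (abs_nonneg s)).trans hle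
    have hbox := box_bound (F₀ := fun x => s₀ * F₀ x) (F₁ := fun x => s₁ * F₁ x)
      (F₂ := fun x => s₂ * F₂ x) (m₀.const_mul s₀) (m₁.const_mul s₁) (m₂.const_mul s₂)
      (hb s₀ B₀ F₀ hB₀ (by simp only [B]; linarith [hn.2.1, hn.2.2]))
      (hb s₁ B₁ F₁ hB₁ (by simp only [B]; linarith [hn.1, hn.2.2]))
      (hb s₂ B₂ F₂ hB₂ (by simp only [B]; linarith [hn.1, hn.2.1]))
      P S hSP
    have hsub : ∀ (s : ℝ) (G : ℝ × ℝ → ℝ) (C : ℝ), Measurable G → (∀ x, |G x| ≤ C) →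
        HasCompactSupport G →
        ∫ x in box P, |s * G x| ^ 3 ≤ ∫ x in Set.Ici (0 : ℝ) ×ˢ Set.Ici (0 : ℝ), |s * G x| ^ 3 := by
      intro s G C hm hC hc
      refine setIntegral_mono_set ?_ (Eventually.of_forall fun x => by positivity)
        (Eventually.of_forall fun x hx => ⟨hx.1.1, hx.2.1⟩)
      exact pow3_integrableOn (hm.const_mul s) ⟨|s| * |C|, fun x => by
        rw [abs_mul]
        exact mul_le_mul_of_nonneg_left ((hC x).trans (le_abs_self C)) (abs_nonneg s)⟩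
        hc.mul_left _
    have i₀ := (hsub s₀ F₀ B₀ m₀ hB₀ c₀).trans (scaled_cube_le F₀ hd)
    have i₁ := (hsub s₁ F₁ B₁ m₁ hB₁ c₁).trans (scaled_cube_le F₁ hd)
    have i₂ := (hsub s₂ F₂ B₂ m₂ hB₂ c₂).trans (scaled_cube_le F₂ hd)
    have hs : ∑ k ∈ S, ∑ t ∈ tFin P k,
        |triForm k t (fun x => s₀ * F₀ x) (fun x => s₁ * F₁ x) (fun x => s₂ * F₂ x)|
          = s₀ * s₁ * s₂ * X := by
      simp only [hX, Finset.mul_sum, triForm_smul, abs_mul]
      rw [abs_of_pos (inv_pos.mpr p₀), abs_of_pos (inv_pos.mpr p₁), abs_of_pos (inv_pos.mpr p₂)]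
    rw [hs] at hbox
    have h192 : s₀ * s₁ * s₂ * X ≤ 192 := by linarith
    calc X = (norm3 F₀ + d) * (norm3 F₁ + d) * (norm3 F₂ + d) * (s₀ * s₁ * s₂ * X) := by
          simp only [s₀, s₁, s₂]; field_simp
      _ ≤ (norm3 F₀ + d) * (norm3 F₁ + d) * (norm3 F₂ + d) * 192 :=
          mul_le_mul_of_nonneg_left h192 (by positivity)
      _ = _ := by ring
  have hlim : Tendsto (fun d : ℝ => 192 * ((norm3 F₀ + d) * (norm3 F₁ + d) * (norm3 F₂ + d)))
      (𝓝[>] 0) (𝓝 (192 * norm3 F₀ * norm3 F₁ * norm3 F₂)) := by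
    have : Continuous (fun d : ℝ => 192 * ((norm3 F₀ + d) * (norm3 F₁ + d) * (norm3 F₂ + d))) := by
      fun_prop
    have h := (this.tendsto 0).mono_left (nhdsWithin_le_nhds (s := Set.Ioi (0 : ℝ)))
    simpa [mul_assoc] using h
  exact ge_of_tendsto hlim (eventually_nhdsWithin_of_forall fun d hd => key d hd)

/-- the bound for the form with coefficients -/
theorem form_bound (m₀ : Measurable F₀) (m₁ : Measurable F₁) (m₂ : Measurable F₂)
    (b₀ : ∃ B, ∀ x, |F₀ x| ≤ B) (b₁ : ∃ B, ∀ x, |F₁ x| ≤ B) (b₂ : ∃ B, ∀ x, |F₂ x| ≤ B)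
    (c₀ : HasCompactSupport F₀) (c₁ : HasCompactSupport F₁) (c₂ : HasCompactSupport F₂)
    (S : Finset ℤ) (eps : ℤ → ℝ) (he : ∀ k ∈ S, |eps k| ≤ 1) :
    |form S eps F₀ F₁ F₂| ≤ 192 * norm3 F₀ * norm3 F₁ * norm3 F₂ := by
  refine le_trans ?_ (abs_bound m₀ m₁ m₂ b₀ b₁ b₂ c₀ c₁ c₂ S)
  refine (Finset.abs_sum_le_sum_abs _ _).trans (Finset.sum_le_sum fun k hk => ?_)
  rw [abs_mul]
  refine (mul_le_of_le_one_left (abs_nonneg _) (he k hk)).trans ?_
  have hs := triForm_summable (F₁ := F₁) (F₂ := F₂) c₀ k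
  have h := norm_tsum_le_tsum_norm (f := fun t : Triples => triForm k t F₀ F₁ F₂)
    (by simpa only [Real.norm_eq_abs] using hs)
  simpa only [Real.norm_eq_abs] using h

end Vale.Agent.P075Tri
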