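import Mathlib

/-!
Trace inequalities for square roots of Gram matrices (helper file for P075).
-/

open Matrix

set_option linter.unusedSectionVars false

namespace Vale.Agent.P075Tri

variable {n p q r : Type} [Fintype n] [Fintype p] [Fintype q] [Fintype r]
  [DecidableEq n] [DecidableEq p] [DecidableEq q] [DecidableEq r]

/-- real symmetric matrix with nonnegative quadratic form -/
def Psd (R : Matrix n n ℝ) : Prop :=
  Rᵀ = R ∧ ∀ z : n → ℝ, 0 ≤ z ⬝ᵥ (R *ᵥ z)

lemma psd_conj_diag (W : Matrix p n ℝ) (a : n → ℝ) (ha : ∀ i, 0 ≤ a i) :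
    Psd (W * diagonal a * Wᵀ) := by
  refine ⟨by simp [transpose_mul, Matrix.mul_assoc], fun z => ?_⟩
  rw [← mulVec_mulVec, ← mulVec_mulVec, dotProduct_mulVec, mulVec_transpose]
  simp only [dotProduct, mulVec_diagonal]
  apply Finset.sum_nonneg
  intro i _
  nlinarith [ha i, mul_self_nonneg ((z ᵥ* W) i)]

lemma Psd.smul {R : Matrix n n ℝ} (hR : Psd R) {c : ℝ} (hc : 0 ≤ c) : Psd (c • R) := by
  refine ⟨by simp [transpose_smul, hR.1], fun z => ?_⟩
  rw [smul_mulVec, dotProduct_smul, smul_eq_mul]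
  exact mul_nonneg hc (hR.2 z)

lemma Psd.add {R S : Matrix n n ℝ} (hR : Psd R) (hS : Psd S) : Psd (R + S) := by
  refine ⟨by simp [hR.1, hS.1], fun z => ?_⟩
  rw [add_mulVec, dotProduct_add]
  linarith [hR.2 z, hS.2 z]

lemma trace_conj_eq (X : Matrix n p ℝ) (R : Matrix n n ℝ) :
    trace (Xᵀ * R * X) = ∑ j, (fun i => X i j) ⬝ᵥ (R *ᵥ (fun i => X i j)) := by
  simp only [trace, Matrix.diag, Matrix.mul_assoc]
  apply Finset.sum_congr rfl
  intro j _
  simp [Matrix.mul_apply, dotProduct, mulVec]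

lemma Psd.trace_conj_nonneg {R : Matrix n n ℝ} (hR : Psd R) (X : Matrix n p ℝ) :
    0 ≤ trace (Xᵀ * R * X) := by
  rw [trace_conj_eq]
  exact Finset.sum_nonneg fun j _ => hR.2 _

/-- monotonicity of the positive square root -/
lemma root_mono {R P : Matrix n n ℝ} (hR : Psd R) (hP : Psd P)
    (h : ∀ z, z ⬝ᵥ ((R * R) *ᵥ z) ≤ z ⬝ᵥ ((P * P) *ᵥ z)) :
    ∀ z, z ⬝ᵥ (R *ᵥ z) ≤ z ⬝ᵥ (P *ᵥ z) := by
  have hH : (P - R).IsHermitian := by
    rw [IsHermitian, conjTranspose_eq_transpose_of_trivial, transpose_sub, hP.1, hR.1]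
  have hnn : ∀ i, 0 ≤ hH.eigenvalues i := by
    intro i
    by_contra hc
    push Not at hc
    set μ := hH.eigenvalues i
    set v : n → ℝ := ⇑(hH.eigenvectorBasis i) with hv_def
    have hv : (P - R) *ᵥ v = μ • v := hH.mulVec_eigenvectorBasis i
    have hvv : 0 < v ⬝ᵥ v := by
      have h0 : v ≠ 0 := by
        intro h0
        apply hH.eigenvectorBasis.orthonormal.ne_zero i
        ext j
        exact congrFun h0 j
      have : 0 ≤ v ⬝ᵥ v := Finset.sum_nonneg fun j _ => mul_self_nonneg _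
      rcases this.lt_or_eq with h1 | h1
      · exact h1
      · exact absurd (dotProduct_self_eq_zero.mp h1.symm) h0
    have hPv : P *ᵥ v = R *ᵥ v + μ • v := by
      rw [← hv, sub_mulVec]; abel
    have e1 : v ⬝ᵥ ((P * P) *ᵥ v) = (P *ᵥ v) ⬝ᵥ (P *ᵥ v) := by
      rw [← mulVec_mulVec, dotProduct_mulVec, ← mulVec_transpose, hP.1]
    have e2 : v ⬝ᵥ ((R * R) *ᵥ v) = (R *ᵥ v) ⬝ᵥ (R *ᵥ v) := by
      rw [← mulVec_mulVec, dotProduct_mulVec, ← mulVec_transpose, hR.1]
    have h2 := h v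
    rw [e1, e2, hPv] at h2
    simp only [add_dotProduct, dotProduct_add, smul_dotProduct, dotProduct_smul,
      smul_eq_mul] at h2
    rw [dotProduct_comm (R *ᵥ v) v] at h2
    have h3 := hR.2 v
    have h4 := hP.2 v
    rw [hPv, dotProduct_add, dotProduct_smul, smul_eq_mul] at h4
    have h5 : v ⬝ᵥ (R *ᵥ v) * 2 + μ * (v ⬝ᵥ v) ≤ 0 := by
      by_contra h6
      push Not at h6
      nlinarith [mul_neg_of_neg_of_pos hc h6]
    nlinarith [mul_neg_of_neg_of_pos hc hvv]
  have hps := hH.posSemidef_iff_eigenvalues_nonneg.mpr hnn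
  intro z
  have := hps.dotProduct_mulVec_nonneg z
  rw [star_trivial, sub_mulVec, dotProduct_sub] at this
  linarith

lemma trace_conj_mono {R P : Matrix n n ℝ}
    (h : ∀ z, z ⬝ᵥ (R *ᵥ z) ≤ z ⬝ᵥ (P *ᵥ z)) (X : Matrix n p ℝ) :
    trace (Xᵀ * R * X) ≤ trace (Xᵀ * P * X) := by
  rw [trace_conj_eq, trace_conj_eq]
  exact Finset.sum_le_sum fun j _ => h _

lemma psd_root_unique {R P : Matrix n n ℝ} (hR : Psd R) (hP : Psd P) (h : R * R = P * P) :
    trace (R * R * R) = trace (P * P * P) := by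
  have h1 := root_mono hR hP (fun z => by rw [h])
  have h2 := root_mono hP hR (fun z => by rw [h])
  have e : ∀ z, z ⬝ᵥ (R *ᵥ z) = z ⬝ᵥ (P *ᵥ z) := fun z => le_antisymm (h1 z) (h2 z)
  have t := trace_conj_mono (R := R) (P := P) (fun z => (e z).le) R
  have t' := trace_conj_mono (R := P) (P := R) (fun z => (e z).ge) R
  rw [hR.1] at t t'
  have : trace (R * R * R) = trace (R * P * R) := le_antisymm t t'
  rw [this, trace_mul_cycle, h, trace_mul_comm]

/-- singular value decomposition data -/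
structure Svd (M : Matrix p n ℝ) where
  /-- left frame -/
  W : Matrix p n ℝ
  /-- right frame -/
  V : Matrix n n ℝ
  /-- singular values -/
  a : n → ℝ
  /-- support indicator -/
  e : n → ℝ
  a_nonneg : ∀ i, 0 ≤ a i
  e_nonneg : ∀ i, 0 ≤ e i
  e_le : ∀ i, e i ≤ 1
  e_mul : ∀ i, e i * a i = a i
  V_left : Vᵀ * V = 1
  V_right : V * Vᵀ = 1
  W_left : Wᵀ * W = diagonal e
  fac : M = W * diagonal a * Vᵀ

lemma svd_exists (M : Matrix p n ℝ) : Nonempty (Svd M) := by
  have hG : (Mᵀ * M).IsHermitian := by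
    rw [IsHermitian, conjTranspose_eq_transpose_of_trivial, transpose_mul, transpose_transpose]
  set U : Matrix n n ℝ := (hG.eigenvectorUnitary : Matrix n n ℝ) with hU
  have hU1 : Uᵀ * U = 1 := by
    have := Unitary.coe_star_mul_self hG.eigenvectorUnitary
    simpa [Matrix.star_eq_conjTranspose, conjTranspose_eq_transpose_of_trivial] using this
  have hU2 : U * Uᵀ = 1 := mul_eq_one_comm.mp hU1
  set l := hG.eigenvalues with hl
  have hspec : Mᵀ * M = U * diagonal l * Uᵀ := by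
    have := hG.spectral_theorem
    simpa [Unitary.conjStarAlgAut_apply, Matrix.star_eq_conjTranspose,
      conjTranspose_eq_transpose_of_trivial] using this
  set N := M * U with hN
  have hNN : Nᵀ * N = diagonal l := by
    calc Nᵀ * N = Uᵀ * (Mᵀ * M) * U := by rw [hN, transpose_mul]; simp [Matrix.mul_assoc]
      _ = (Uᵀ * U) * diagonal l * (Uᵀ * U) := by rw [hspec]; simp [Matrix.mul_assoc]
      _ = diagonal l := by rw [hU1]; simp
  have hlcol : ∀ i, l i = ∑ k, N k i * N k i := by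
    intro i
    have := congrFun (congrFun hNN i) i
    simpa [Matrix.mul_apply, diagonal] using this.symm
  have hl0 : ∀ i, 0 ≤ l i := fun i => by
    rw [hlcol i]; exact Finset.sum_nonneg fun k _ => mul_self_nonneg _
  let a : n → ℝ := fun i => Real.sqrt (l i)
  let ai : n → ℝ := fun i => (a i)⁻¹
  have hsq : ∀ i, a i * a i = l i := fun i => Real.mul_self_sqrt (hl0 i)
  refine ⟨⟨N * diagonal ai, U, a, fun i => if a i = 0 then 0 else 1, fun i => Real.sqrt_nonneg _,
    fun i => by split_ifs <;> norm_num,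
    fun i => by split_ifs <;> norm_num,
    fun i => by split_ifs with h <;> simp [h], hU1, hU2, ?_, ?_⟩⟩
  · rw [transpose_mul, diagonal_transpose, Matrix.mul_assoc, ← Matrix.mul_assoc Nᵀ, hNN,
      diagonal_mul_diagonal, diagonal_mul_diagonal]
    congr 1
    funext i
    by_cases h : a i = 0
    · simp [h, ai]
    · simp only [h, if_false, ai]
      rw [← hsq i]; field_simp
  · have hNa : N * diagonal ai * diagonal a = N := by
      ext k i
      rw [Matrix.mul_assoc, diagonal_mul_diagonal, mul_diagonal]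
      by_cases h : a i = 0
      · have : l i = 0 := by rw [← hsq i, h, mul_zero]
        rw [hlcol i] at this
        have := (Finset.sum_eq_zero_iff_of_nonneg fun k _ => mul_self_nonneg _).mp this k
          (Finset.mem_univ k)
        rw [mul_self_eq_zero.mp this]; simp
      · simp [ai, h]
    rw [hNa, hN, Matrix.mul_assoc, hU2, Matrix.mul_one]

/-- a chosen decomposition -/
noncomputable def svd (M : Matrix p n ℝ) : Svd M := Classical.choice (svd_exists M)

/-- Schatten three norm cubed -/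
noncomputable def S3 (M : Matrix p n ℝ) : ℝ := ∑ i, (svd M).a i ^ 3

/-- square root of M Mᵀ -/
def Svd.rootL {M : Matrix p n ℝ} (d : Svd M) : Matrix p p ℝ := d.W * diagonal d.a * d.Wᵀ

/-- square root of Mᵀ M -/
def Svd.rootR {M : Matrix p n ℝ} (d : Svd M) : Matrix n n ℝ := d.V * diagonal d.a * d.Vᵀ

lemma Svd.rootL_psd {M : Matrix p n ℝ} (d : Svd M) : Psd d.rootL :=
  psd_conj_diag _ _ d.a_nonneg

lemma Svd.rootR_psd {M : Matrix p n ℝ} (d : Svd M) : Psd d.rootR :=
  psd_conj_diag _ _ d.a_nonneg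

lemma Svd.mul_e {M : Matrix p n ℝ} (d : Svd M) :
    diagonal d.a * diagonal d.e = diagonal d.a := by
  rw [diagonal_mul_diagonal]
  congr 1
  funext i
  rw [mul_comm, d.e_mul]

lemma Svd.rootL_sq {M : Matrix p n ℝ} (d : Svd M) : d.rootL * d.rootL = M * Mᵀ := by
  conv_rhs => rw [d.fac]
  simp only [Svd.rootL, transpose_mul, transpose_transpose, diagonal_transpose, Matrix.mul_assoc]
  rw [← Matrix.mul_assoc d.Wᵀ d.W, d.W_left, ← Matrix.mul_assoc (diagonal d.a) (diagonal d.e),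
    d.mul_e, ← Matrix.mul_assoc d.Vᵀ d.V, d.V_left, Matrix.one_mul]

lemma Svd.rootR_sq {M : Matrix p n ℝ} (d : Svd M) : d.rootR * d.rootR = Mᵀ * M := by
  conv_rhs => rw [d.fac]
  simp only [Svd.rootR, transpose_mul, transpose_transpose, diagonal_transpose, Matrix.mul_assoc]
  rw [← Matrix.mul_assoc d.Vᵀ d.V, d.V_left, Matrix.one_mul, ← Matrix.mul_assoc d.Wᵀ d.W,
    d.W_left, ← Matrix.mul_assoc (diagonal d.e) (diagonal d.a)]
  congr 1
  rw [diagonal_mul_diagonal (d₁ := d.e)]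
  simp_rw [d.e_mul]

lemma Svd.rootL_cube {M : Matrix p n ℝ} (d : Svd M) :
    trace (d.rootL * d.rootL * d.rootL) = ∑ i, d.a i ^ 3 := by
  have : d.rootL * d.rootL * d.rootL = d.W * (diagonal d.a * diagonal d.e * diagonal d.a *
      diagonal d.e * diagonal d.a) * d.Wᵀ := by
    simp only [Svd.rootL, ← d.W_left, Matrix.mul_assoc]
  rw [this, trace_mul_cycle, d.W_left, d.mul_e, Matrix.mul_assoc (diagonal d.a) _ (diagonal d.e),
    d.mul_e]
  simp only [diagonal_mul_diagonal, trace_diagonal]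
  apply Finset.sum_congr rfl
  intro i _
  have := d.e_mul i
  linear_combination (d.a i) ^ 2 * this

lemma Svd.rootR_cube {M : Matrix p n ℝ} (d : Svd M) :
    trace (d.rootR * d.rootR * d.rootR) = ∑ i, d.a i ^ 3 := by
  have : d.rootR * d.rootR * d.rootR = d.V * (diagonal d.a * (d.Vᵀ * d.V) * diagonal d.a *
      (d.Vᵀ * d.V) * diagonal d.a) * d.Vᵀ := by
    simp only [Svd.rootR, Matrix.mul_assoc]
  rw [this, trace_mul_cycle, d.V_left]
  simp only [Matrix.mul_one, Matrix.one_mul, diagonal_mul_diagonal, trace_diagonal]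
  exact Finset.sum_congr rfl fun i _ => by ring

lemma S3_eq_left {M : Matrix p n ℝ} {R : Matrix p p ℝ} (hR : Psd R) (h : R * R = M * Mᵀ) :
    trace (R * R * R) = S3 M := by
  rw [psd_root_unique hR (svd M).rootL_psd (by rw [h, (svd M).rootL_sq]), (svd M).rootL_cube, S3]

lemma S3_eq_right {M : Matrix p n ℝ} {R : Matrix n n ℝ} (hR : Psd R) (h : R * R = Mᵀ * M) :
    trace (R * R * R) = S3 M := by
  rw [psd_root_unique hR (svd M).rootR_psd (by rw [h, (svd M).rootR_sq]), (svd M).rootR_cube, S3]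

lemma S3_transpose (M : Matrix p n ℝ) : S3 Mᵀ = S3 M := by
  have h := (svd Mᵀ).rootL_sq
  rw [transpose_transpose] at h
  rw [← S3_eq_right (svd Mᵀ).rootL_psd h, (svd Mᵀ).rootL_cube, S3]

lemma S3_nonneg (M : Matrix p n ℝ) : 0 ≤ S3 M :=
  Finset.sum_nonneg fun i _ => pow_nonneg ((svd M).a_nonneg i) 3

lemma bregman (R S : Matrix n n ℝ) :
    trace (R * R * R) + (1 / 2 : ℝ) * trace (S * S * S) - (3 / 2 : ℝ) * trace (S * R * R)
      = (1 / 2 : ℝ) * trace ((R - S) * (R + S) * (R - S))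
        + (1 / 2 : ℝ) * trace ((R - S) * R * (R - S)) := by
  simp only [Matrix.sub_mul, Matrix.mul_sub, Matrix.add_mul, Matrix.mul_add, trace_sub,
    trace_add]
  have a1 : trace (R * R * S) = trace (S * R * R) := trace_mul_cycle R R S
  have a2 : trace (R * S * R) = trace (S * R * R) := by
    rw [trace_mul_cycle R S R, trace_mul_cycle R R S]
  have b1 : trace (S * R * S) = trace (S * S * R) := trace_mul_cycle S R S
  have b2 : trace (R * S * S) = trace (S * S * R) := by
    rw [trace_mul_cycle R S S, trace_mul_cycle S R S]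
  rw [a1, a2, b1, b2]
  ring

lemma Psd.trace_sandwich_nonneg {R : Matrix n n ℝ} (hR : Psd R) {E : Matrix n n ℝ}
    (hE : Eᵀ = E) : 0 ≤ trace (E * R * E) := by
  have := hR.trace_conj_nonneg E
  rwa [hE] at this

/-- gain of splitting a Gram matrix in two -/
lemma gain_two {R₁ R₂ S : Matrix n n ℝ} (h₁ : Psd R₁) (h₂ : Psd R₂) (hS : Psd S)
    (h : R₁ * R₁ + R₂ * R₂ = (2 : ℝ) • (S * S)) :
    (1 / 2 : ℝ) * trace ((R₁ - S) * (R₁ + S) * (R₁ - S)) ≤
      trace (R₁ * R₁ * R₁) + trace (R₂ * R₂ * R₂) - 2 * trace (S * S * S) := by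
  have e1 := bregman R₁ S
  have e2 := bregman R₂ S
  have hsum : trace (S * R₁ * R₁) + trace (S * R₂ * R₂) = 2 * trace (S * S * S) := by
    rw [Matrix.mul_assoc, Matrix.mul_assoc, ← trace_add, ← Matrix.mul_add, h, Matrix.mul_smul,
      trace_smul, smul_eq_mul, Matrix.mul_assoc]
  have hs₁ : (R₁ - S)ᵀ = R₁ - S := by rw [transpose_sub, h₁.1, hS.1]
  have hs₂ : (R₂ - S)ᵀ = R₂ - S := by rw [transpose_sub, h₂.1, hS.1]
  have p1 := h₁.trace_sandwich_nonneg hs₁
  have p2 := (h₂.add hS).trace_sandwich_nonneg hs₂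
  have p3 := h₂.trace_sandwich_nonneg hs₂
  linarith

end Vale.Agent.P075Tri
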