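import Vale.Agent.P075Tri.Mat

/-!
The stacked pair gain dominates the weighted commutation term (helper file for P075).
-/

open Matrix

set_option linter.unusedSectionVars false

namespace Vale.Agent.P075Tri

variable {n p q r s m₁ m₂ : Type} [Fintype n] [Fintype p] [Fintype q] [Fintype r] [Fintype s]
  [Fintype m₁] [Fintype m₂]
  [DecidableEq n] [DecidableEq p] [DecidableEq q] [DecidableEq r] [DecidableEq s]
  [DecidableEq m₁] [DecidableEq m₂]

lemma Psd.fromBlocks {P : Matrix p p ℝ} {Q : Matrix q q ℝ} (hP : Psd P) (hQ : Psd Q) :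
    Psd (Matrix.fromBlocks P 0 0 Q) := by
  refine ⟨by simp [fromBlocks_transpose, hP.1, hQ.1], fun z => ?_⟩
  rw [fromBlocks_mulVec]
  simp only [zero_mulVec, add_zero, zero_add, dotProduct, Fintype.sum_sum_type, Sum.elim_inl,
    Sum.elim_inr]
  exact add_nonneg (hP.2 _) (hQ.2 _)

lemma trace_blocks (A : Matrix p p ℝ) (B : Matrix p q ℝ) (C : Matrix q p ℝ) (D : Matrix q q ℝ) :
    trace (Matrix.fromBlocks A B C D) = trace A + trace D := by
  simp [trace, Fintype.sum_sum_type]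

/-- weighted commutation quantity -/
noncomputable def delta (K : Matrix n q ℝ) (a : n → ℝ) (b : q → ℝ) : ℝ :=
  ∑ i, ∑ j, K i j ^ 2 * (a i ^ 2 * b j ^ 2 / (a i + b j))

lemma sandwich_two {R : Matrix n n ℝ} (hR : Psd R) {E Y : Matrix n n ℝ} (hE : Eᵀ = E)
    (hY : Yᵀ = Y) :
    2 * trace (Y * R * E) ≤ 2 * trace (E * R * E) + (1 / 2 : ℝ) * trace (Y * R * Y) := by
  have hs : ((2 : ℝ) • E - Y)ᵀ = (2 : ℝ) • E - Y := by
    rw [transpose_sub, transpose_smul, hE, hY]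
  have h := hR.trace_sandwich_nonneg hs
  have e : trace (E * R * Y) = trace (Y * R * E) := by
    conv_rhs => rw [← trace_transpose, transpose_mul, transpose_mul, hE, hY, hR.1]
    rw [Matrix.mul_assoc]
  simp only [Matrix.sub_mul, Matrix.mul_sub, Matrix.smul_mul, Matrix.mul_smul, trace_sub,
    trace_smul, smul_eq_mul, e] at h
  linarith

/-- duality bound: one half of the test quantity is controlled by the gain -/
lemma duality {R S P E Y : Matrix n n ℝ} (hR : Psd R) (hS : Psd S) (hP : Psd P)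
    (hE : E = R - S) (hY : Yᵀ = Y)
    (hRP : ∀ z, z ⬝ᵥ ((R * R) *ᵥ z) ≤ 4 * z ⬝ᵥ ((P * P) *ᵥ z))
    (hSP : ∀ z, z ⬝ᵥ ((S * S) *ᵥ z) ≤ 4 * z ⬝ᵥ ((P * P) *ᵥ z)) :
    trace ((R * R - S * S) * Y) ≤ trace (E * (R + S) * E) + trace (Y * P * Y) := by
  have hEs : Eᵀ = E := by rw [hE, transpose_sub, hR.1, hS.1]
  have h2 : ∀ z, z ⬝ᵥ (((2 : ℝ) • P * ((2 : ℝ) • P)) *ᵥ z) = 4 * z ⬝ᵥ ((P * P) *ᵥ z) := by
    intro z
    rw [Matrix.smul_mul, Matrix.mul_smul, smul_smul, smul_mulVec, dotProduct_smul, smul_eq_mul]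
    norm_num
  have m1 := trace_conj_mono (root_mono hR (hP.smul zero_le_two)
    (fun z => (hRP z).trans_eq (h2 z).symm)) Y
  have m2 := trace_conj_mono (root_mono hS (hP.smul zero_le_two)
    (fun z => (hSP z).trans_eq (h2 z).symm)) Y
  rw [hY, Matrix.mul_smul, Matrix.smul_mul, trace_smul, smul_eq_mul] at m1 m2
  have hd : R * R - S * S = R * E + E * S := by
    rw [hE, Matrix.mul_sub, Matrix.sub_mul]; abel
  have c1 : trace (R * E * Y) = trace (Y * R * E) := trace_mul_cycle R E Y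
  have c2 : trace (E * S * Y) = trace (Y * S * E) := by
    conv_rhs => rw [← trace_transpose, transpose_mul, transpose_mul, hEs, hY, hS.1]
    rw [Matrix.mul_assoc]
  have s1 := sandwich_two hR hEs hY
  have s2 := sandwich_two hS hEs hY
  rw [hd, Matrix.add_mul, trace_add, c1, c2, Matrix.mul_add, Matrix.add_mul, trace_add]
  linarith

/-- the gain of one splitting -/
lemma split_gain {M : Matrix r n ℝ} {M₁ : Matrix r m₁ ℝ} {M₂ : Matrix r m₂ ℝ}
    (hsum : M * Mᵀ = M₁ * M₁ᵀ + M₂ * M₂ᵀ) :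
    ∃ R S : Matrix r r ℝ, Psd R ∧ Psd S ∧ R * R = (2 : ℝ) • (M₁ * M₁ᵀ) ∧ S * S = M * Mᵀ ∧
      (1 / 4 : ℝ) * trace ((R - S) * (R + S) * (R - S)) ≤
        Real.sqrt 2 * (S3 M₁ + S3 M₂) - S3 M := by
  set c := Real.sqrt 2
  have hc : c * c = 2 := Real.mul_self_sqrt zero_le_two
  set R₁ := c • (svd M₁).rootL
  set R₂ := c • (svd M₂).rootL
  set S := (svd M).rootL
  have h₁ : Psd R₁ := (svd M₁).rootL_psd.smul (Real.sqrt_nonneg _)
  have h₂ : Psd R₂ := (svd M₂).rootL_psd.smul (Real.sqrt_nonneg _)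
  have e₁ : R₁ * R₁ = (2 : ℝ) • (M₁ * M₁ᵀ) := by
    rw [Matrix.smul_mul, Matrix.mul_smul, smul_smul, hc, (svd M₁).rootL_sq]
  have e₂ : R₂ * R₂ = (2 : ℝ) • (M₂ * M₂ᵀ) := by
    rw [Matrix.smul_mul, Matrix.mul_smul, smul_smul, hc, (svd M₂).rootL_sq]
  refine ⟨R₁, S, h₁, (svd M).rootL_psd, e₁, (svd M).rootL_sq, ?_⟩
  have hg := gain_two h₁ h₂ (svd M).rootL_psd
    (by rw [e₁, e₂, (svd M).rootL_sq, hsum, smul_add])
  have t₁ : trace (R₁ * R₁ * R₁) = 2 * c * S3 M₁ := by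
    simp only [R₁, Matrix.smul_mul, Matrix.mul_smul, trace_smul, smul_eq_mul,
      (svd M₁).rootL_cube]
    rw [← mul_assoc, ← mul_assoc, hc, S3]
  have t₂ : trace (R₂ * R₂ * R₂) = 2 * c * S3 M₂ := by
    simp only [R₂, Matrix.smul_mul, Matrix.mul_smul, trace_smul, smul_eq_mul,
      (svd M₂).rootL_cube]
    rw [← mul_assoc, ← mul_assoc, hc, S3]
  have t : trace (S * S * S) = S3 M := (svd M).rootL_cube
  rw [t₁, t₂, t] at hg
  linarith

lemma split_mono {M : Matrix r n ℝ} {M₁ : Matrix r m₁ ℝ} {M₂ : Matrix r m₂ ℝ}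
    (hsum : M * Mᵀ = M₁ * M₁ᵀ + M₂ * M₂ᵀ) :
    S3 M ≤ Real.sqrt 2 * (S3 M₁ + S3 M₂) := by
  obtain ⟨R, S, hR, hS, -, -, h⟩ := split_gain hsum
  have := (hR.add hS).trace_sandwich_nonneg (E := R - S) (by rw [transpose_sub, hR.1, hS.1])
  linarith

lemma split_mono' {M : Matrix n r ℝ} {M₁ : Matrix m₁ r ℝ} {M₂ : Matrix m₂ r ℝ}
    (hsum : Mᵀ * M = M₁ᵀ * M₁ + M₂ᵀ * M₂) :
    S3 M ≤ Real.sqrt 2 * (S3 M₁ + S3 M₂) := by
  have := split_mono (M := Mᵀ) (M₁ := M₁ᵀ) (M₂ := M₂ᵀ) (by simpa using hsum)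
  simpa [S3_transpose] using this

/-- gain of the middle splitting of a stacked pair -/
lemma pair_gain (A : Matrix p n ℝ) (B : Matrix n q ℝ) (h : n → ℝ)
    (M₁ : Matrix (p ⊕ q) m₁ ℝ) (M₂ : Matrix (p ⊕ q) m₂ ℝ)
    (hsum : fromRows A Bᵀ * (fromRows A Bᵀ)ᵀ = M₁ * M₁ᵀ + M₂ * M₂ᵀ)
    (hdiff : fromRows A Bᵀ * diagonal h * (fromRows A Bᵀ)ᵀ = M₁ * M₁ᵀ - M₂ * M₂ᵀ) :
    delta ((svd A).Vᵀ * diagonal h * (svd B).W) (svd A).a (svd B).a ≤
      4 * (Real.sqrt 2 * (S3 M₁ + S3 M₂) - S3 (fromRows A Bᵀ)) := by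
  set d := svd A
  set f := svd B
  set M := fromRows A Bᵀ with hM
  set K := d.Vᵀ * diagonal h * f.W with hK
  obtain ⟨R, S, hR, hS, hRR, hSS, hgain⟩ := split_gain (M := M) hsum
  let Z : Matrix q n ℝ := fun j i => K i j * (d.a i * f.a j / (d.a i + f.a j))
  let Y : Matrix q p ℝ := f.V * Z * d.Wᵀ
  let Yh : Matrix (p ⊕ q) (p ⊕ q) ℝ := fromBlocks 0 Yᵀ Y 0
  let P : Matrix (p ⊕ q) (p ⊕ q) ℝ := fromBlocks d.rootL 0 0 f.rootR
  have hP : Psd P := d.rootL_psd.fromBlocks f.rootR_psd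
  have hY : Yhᵀ = Yh := by simp [Yh, fromBlocks_transpose]
  have hPP : P * P = fromBlocks (A * Aᵀ) 0 0 (Bᵀ * B) := by
    simp [P, fromBlocks_multiply, d.rootL_sq, f.rootR_sq]
  have hSP : ∀ z, z ⬝ᵥ ((S * S) *ᵥ z) ≤ 2 * z ⬝ᵥ ((P * P) *ᵥ z) := by
    intro z
    rw [hSS, hPP, ← mulVec_mulVec, dotProduct_mulVec, ← mulVec_transpose, fromBlocks_mulVec]
    simp only [zero_mulVec, add_zero, zero_add]
    have e : Mᵀ *ᵥ z = Aᵀ *ᵥ (z ∘ Sum.inl) + B *ᵥ (z ∘ Sum.inr) := by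
      conv_lhs => rw [hM, transpose_fromRows, transpose_transpose, ← Sum.elim_comp_inl_inr z,
        fromCols_mulVec_sumElim]
    rw [e]
    have ea : ∀ x : p → ℝ, x ⬝ᵥ ((A * Aᵀ) *ᵥ x) = (Aᵀ *ᵥ x) ⬝ᵥ (Aᵀ *ᵥ x) := by
      intro x
      rw [← mulVec_mulVec, dotProduct_mulVec, ← mulVec_transpose]
    have eb : ∀ x : q → ℝ, x ⬝ᵥ ((Bᵀ * B) *ᵥ x) = (B *ᵥ x) ⬝ᵥ (B *ᵥ x) := by
      intro x
      rw [← mulVec_mulVec, dotProduct_mulVec, ← mulVec_transpose, transpose_transpose]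
    have split : ∀ u : p → ℝ, ∀ w : q → ℝ,
        z ⬝ᵥ Sum.elim u w = (z ∘ Sum.inl) ⬝ᵥ u + (z ∘ Sum.inr) ⬝ᵥ w := by
      intro u w
      simp [dotProduct, Fintype.sum_sum_type]
    rw [split, ea, eb]
    simp only [dotProduct, Pi.add_apply, Finset.mul_sum, ← Finset.sum_add_distrib]
    apply Finset.sum_le_sum
    intro i _
    nlinarith [sq_nonneg ((Aᵀ *ᵥ (z ∘ Sum.inl)) i - (B *ᵥ (z ∘ Sum.inr)) i)]
  have hpp0 : ∀ z, 0 ≤ z ⬝ᵥ ((P * P) *ᵥ z) := by
    intro z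
    rw [← mulVec_mulVec, dotProduct_mulVec, ← mulVec_transpose, hP.1]
    exact Finset.sum_nonneg fun i _ => mul_self_nonneg _
  have hRP : ∀ z, z ⬝ᵥ ((R * R) *ᵥ z) ≤ 4 * z ⬝ᵥ ((P * P) *ᵥ z) := by
    intro z
    have h1 : 0 ≤ z ⬝ᵥ ((M₂ * M₂ᵀ) *ᵥ z) := by
      rw [← mulVec_mulVec, dotProduct_mulVec, ← mulVec_transpose]
      exact Finset.sum_nonneg fun i _ => mul_self_nonneg _
    have h2 := hSP z
    rw [hSS, hsum, add_mulVec, dotProduct_add] at h2
    rw [hRR, smul_mulVec, dotProduct_smul, smul_eq_mul]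
    linarith
  have key := duality hR hS hP rfl hY hRP
    (fun z => (hSP z).trans (by linarith [hpp0 z]))
  have hD : R * R - S * S = M * diagonal h * Mᵀ := by
    rw [hRR, hSS, hsum, hdiff, two_smul]; abel
  have hMHM : M * diagonal h * Mᵀ = fromBlocks (A * diagonal h * Aᵀ) (A * diagonal h * B)
      (Bᵀ * diagonal h * Aᵀ) (Bᵀ * diagonal h * B) := by
    rw [hM, transpose_fromRows, fromRows_mul, fromRows_mul_fromCols, transpose_transpose]
  have hterm : ∀ i j, d.e i * (d.a i * K i j * f.a j * Z j i)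
      = K i j ^ 2 * (d.a i ^ 2 * f.a j ^ 2 / (d.a i + f.a j)) := by
    intro i j
    have := d.e_mul i
    simp only [Z]
    calc d.e i * (d.a i * K i j * f.a j * (K i j * (d.a i * f.a j / (d.a i + f.a j))))
        = (d.e i * d.a i) * K i j * f.a j * (K i j * (d.a i * f.a j / (d.a i + f.a j))) := by
          ring
      _ = _ := by rw [this]; ring
  have hAB : A * diagonal h * B * Y = d.W * (diagonal d.a * K * diagonal f.a * Z) * d.Wᵀ := by
    conv_lhs => rw [d.fac, f.fac]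
    simp only [Y, hK, Matrix.mul_assoc]
    rw [← Matrix.mul_assoc f.Vᵀ f.V, f.V_left, Matrix.one_mul]
  have h12 : trace (A * diagonal h * B * Y) = delta K d.a f.a := by
    rw [hAB, trace_mul_cycle, d.W_left]
    simp only [trace, Matrix.diag, diagonal_mul, delta]
    apply Finset.sum_congr rfl
    intro i _
    rw [Matrix.mul_apply, Finset.mul_sum]
    apply Finset.sum_congr rfl
    intro j _
    rw [← hterm i j, mul_diagonal, diagonal_mul]
  have h21 : trace (Bᵀ * diagonal h * Aᵀ * Yᵀ) = delta K d.a f.a := by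
    rw [← h12, ← trace_transpose (A * diagonal h * B * Y)]
    simp only [transpose_mul, diagonal_transpose]
    rw [trace_mul_comm Yᵀ]
    simp only [Matrix.mul_assoc]
  have hlhs : trace (M * diagonal h * Mᵀ * Yh) = 2 * delta K d.a f.a := by
    rw [hMHM]
    simp only [Yh, fromBlocks_multiply, Matrix.mul_zero, zero_add, add_zero,
      trace_blocks]
    rw [h12, h21]; ring
  have hrhs : trace (Yh * P * Yh) ≤ delta K d.a f.a := by
    simp only [Yh, P, fromBlocks_multiply, Matrix.mul_zero, Matrix.zero_mul, zero_add, add_zero,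
      trace_blocks]
    have a1 : Yᵀ * f.rootR * Y = d.W * (Zᵀ * diagonal f.a * Z) * d.Wᵀ := by
      simp only [Y, Svd.rootR, transpose_mul, transpose_transpose, Matrix.mul_assoc]
      rw [← Matrix.mul_assoc f.Vᵀ f.V, f.V_left, Matrix.one_mul,
        ← Matrix.mul_assoc f.Vᵀ f.V, f.V_left, Matrix.one_mul]
    have a2 : Y * d.rootL * Yᵀ = f.V * (Z * (diagonal d.e * diagonal d.a * diagonal d.e) * Zᵀ)
        * f.Vᵀ := by
      simp only [Y, Svd.rootL, transpose_mul, transpose_transpose, Matrix.mul_assoc]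
      rw [← Matrix.mul_assoc d.Wᵀ d.W, d.W_left, ← Matrix.mul_assoc d.Wᵀ d.W, d.W_left]
    rw [a1, a2, trace_mul_cycle, d.W_left, trace_mul_cycle f.V, f.V_left, Matrix.one_mul]
    simp only [trace, Matrix.diag, diagonal_mul, diagonal_mul_diagonal]
    simp only [Matrix.mul_apply, diagonal_apply, mul_ite, mul_zero, Finset.sum_ite_eq',
      Finset.mem_univ, if_true, transpose_apply]
    rw [Finset.sum_comm (α := n) (γ := q)]
    simp only [Finset.mul_sum, ← Finset.sum_add_distrib, delta]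
    apply Finset.sum_le_sum
    intro i _
    apply Finset.sum_le_sum
    intro j _
    have he := d.e_mul i
    have hz : Z j i = K i j * (d.a i * f.a j / (d.a i + f.a j)) := rfl
    have h1 : d.e i * (Z j i * f.a j * Z j i) ≤ Z j i * f.a j * Z j i := by
      apply mul_le_of_le_one_left _ (d.e_le i)
      nlinarith [f.a_nonneg j, mul_self_nonneg (Z j i)]
    have h2 : Z j i * (d.e i * d.a i * d.e i) * Z j i = Z j i * d.a i * Z j i := by
      rw [he, mul_comm (d.a i), he]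
    rw [h2]
    have h3 : Z j i * f.a j * Z j i + Z j i * d.a i * Z j i
        = K i j ^ 2 * (d.a i ^ 2 * f.a j ^ 2 / (d.a i + f.a j)) := by
      rw [hz]
      rcases eq_or_ne (d.a i + f.a j) 0 with h0 | h0
      · simp [h0]
      · field_simp
        ring
    linarith
  rw [hD, hlhs] at key
  linarith

end Vale.Agent.P075Tri
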