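import Vale.Agent.P075Tri.Tri

/-!
One scale step and telescoping in the finite dyadic triangular form (helper file for P075).
-/

open Matrix

set_option linter.unusedSectionVars false

namespace Vale.Agent.P075Tri

/-- sign of a half -/
def sgn (b : Bool) : ℝ := if b then -1 else 1

variable {α : Type} [Fintype α] [DecidableEq α]

/-- child block -/
def sub (A : Matrix (Bool × α) (Bool × α) ℝ) (p q : Bool) : Matrix α α ℝ :=
  fun i j => A (p, i) (q, j)

/-- functional of a block triple -/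
noncomputable def qTri (A B C : Matrix α α ℝ) : ℝ :=
  S3 (fromRows A Bᵀ) + S3 (fromRows B Cᵀ) + S3 (fromRows C Aᵀ)

lemma qTri_nonneg (A B C : Matrix α α ℝ) : 0 ≤ qTri A B C :=
  add_nonneg (add_nonneg (S3_nonneg _) (S3_nonneg _)) (S3_nonneg _)

lemma pair_step (A B : Matrix (Bool × α) (Bool × α) ℝ) :
    delta ((svd A).Vᵀ * diagonal (fun x : Bool × α => sgn x.1) * (svd B).W) (svd A).a (svd B).a ≤
      4 * (2 * (∑ q : Bool, ∑ p : Bool, S3 (fromRows (sub A p q) (sub B q (xor p q))ᵀ))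
        - S3 (fromRows A Bᵀ)) := by
  set M := fromRows A Bᵀ with hM
  let Mq : Bool → Matrix ((Bool × α) ⊕ (Bool × α)) α ℝ :=
    fun q => M.submatrix id (fun i => (q, i))
  have hsum : M * Mᵀ = Mq false * (Mq false)ᵀ + Mq true * (Mq true)ᵀ := by
    ext r s
    simp [Matrix.mul_apply, Fintype.sum_prod_type, Mq, add_comm]
  have hdiff : M * diagonal (fun x : Bool × α => sgn x.1) * Mᵀ
      = Mq false * (Mq false)ᵀ - Mq true * (Mq true)ᵀ := by
    ext r s
    simp only [Matrix.mul_apply (N := Mᵀ), mul_diagonal]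
    simp [Matrix.mul_apply, Fintype.sum_prod_type, Mq, sgn, Finset.sum_neg_distrib]
    ring
  have hg := pair_gain A B (fun x : Bool × α => sgn x.1) (Mq false) (Mq true) hsum hdiff
  have hrow : ∀ q : Bool, S3 (Mq q) ≤ Real.sqrt 2 *
      (S3 (fromRows (sub A false q) (sub B q (xor false q))ᵀ)
        + S3 (fromRows (sub A true q) (sub B q (xor true q))ᵀ)) := by
    intro q
    refine split_mono' ?_
    ext i j
    cases q <;>
      simp [Matrix.mul_apply, Fintype.sum_sum_type, Fintype.sum_prod_type, Mq, hM, sub] <;> ring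
  have h2 : Real.sqrt 2 * Real.sqrt 2 = 2 := Real.mul_self_sqrt zero_le_two
  have h0 := Real.sqrt_nonneg 2
  have e1 := mul_le_mul_of_nonneg_left (add_le_add (hrow false) (hrow true)) h0
  simp only [Fintype.sum_bool]
  rw [← mul_add, ← mul_assoc, h2] at e1
  linarith

/-- one scale step -/
lemma step (A B C : Matrix (Bool × α) (Bool × α) ℝ) :
    |trace (A * diagonal (fun x : Bool × α => sgn x.1) * B * diagonal (fun x : Bool × α => sgn x.1)
        * C * diagonal (fun x : Bool × α => sgn x.1))| ≤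
      8 * (2 * (∑ p : Bool, ∑ q : Bool,
          qTri (sub A p q) (sub B q (xor p q)) (sub C (xor p q) p)) - qTri A B C) := by
  have hs : ∀ x : Bool × α, sgn x.1 * sgn x.1 = 1 := fun x => by
    rcases x with ⟨_ | _, _⟩ <;> simp [sgn]
  have h := trace_three A B C _ _ _ hs hs hs
  have h1 := pair_step A B
  have h2 := pair_step B C
  have h3 := pair_step C A
  simp only [qTri, Fintype.sum_bool, Bool.xor_false, Bool.xor_true, Bool.not_true,
    Bool.not_false] at h h1 h2 h3 ⊢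
  linarith

/-- index set of a block at level `l` -/
def V : ℕ → Type
  | 0 => Unit
  | l + 1 => Bool × V l

instance instFintypeV : (l : ℕ) → Fintype (V l)
  | 0 => inferInstanceAs (Fintype Unit)
  | l + 1 => @instFintypeProd Bool (V l) inferInstance (instFintypeV l)

instance instDecEqV : (l : ℕ) → DecidableEq (V l)
  | 0 => inferInstanceAs (DecidableEq Unit)
  | l + 1 => @instDecidableEqProd Bool (V l) inferInstance (instDecEqV l)

/-- position inside a block -/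
def val : (l : ℕ) → V l → ℕ
  | 0, _ => 0
  | l + 1, x => (if x.1 then 2 ^ l else 0) + val l x.2

/-- sign on a block -/
def hs : (l : ℕ) → V l → ℝ
  | 0, _ => 1
  | _ + 1, x => sgn x.1

/-- block of a kernel -/
def blk (c : ℕ → ℕ → ℝ) (l a b : ℕ) : Matrix (V l) (V l) ℝ :=
  fun i j => c (a * 2 ^ l + val l i) (b * 2 ^ l + val l j)

/-- the term of one block triple -/
noncomputable def term (c₀ c₁ c₂ : ℕ → ℕ → ℝ) (l a b : ℕ) : ℝ :=
  trace (blk c₀ l a b * diagonal (hs l) * blk c₁ l b (a ^^^ b) * diagonal (hs l)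
    * blk c₂ l (a ^^^ b) a * diagonal (hs l))

/-- one level of the form -/
noncomputable def lev (c₀ c₁ c₂ : ℕ → ℕ → ℝ) (l M : ℕ) : ℝ :=
  ((2 : ℝ) ^ l)⁻¹ * ∑ a ∈ Finset.range (2 ^ M), ∑ b ∈ Finset.range (2 ^ M), |term c₀ c₁ c₂ l a b|

/-- one level of the functional -/
noncomputable def qLev (c₀ c₁ c₂ : ℕ → ℕ → ℝ) (l M : ℕ) : ℝ :=
  ((2 : ℝ) ^ l)⁻¹ * ∑ a ∈ Finset.range (2 ^ M), ∑ b ∈ Finset.range (2 ^ M),
    qTri (blk c₀ l a b) (blk c₁ l b (a ^^^ b)) (blk c₂ l (a ^^^ b) a)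

lemma qLev_nonneg (c₀ c₁ c₂ : ℕ → ℕ → ℝ) (l M : ℕ) : 0 ≤ qLev c₀ c₁ c₂ l M :=
  mul_nonneg (by positivity)
    (Finset.sum_nonneg fun _ _ => Finset.sum_nonneg fun _ _ => qTri_nonneg _ _ _)

lemma sum_range_double (N : ℕ) (f : ℕ → ℝ) :
    ∑ x ∈ Finset.range (2 * N), f x
      = ∑ a ∈ Finset.range N, ∑ p : Bool, f (2 * a + p.toNat) := by
  induction N with
  | zero => simp
  | succ N ih =>
    rw [show 2 * (N + 1) = 2 * N + 1 + 1 from rfl, Finset.sum_range_succ, Finset.sum_range_succ,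
      ih, Finset.sum_range_succ, Fintype.sum_bool]
    simp only [Bool.toNat_true, Bool.toNat_false, add_zero]
    ring

lemma xor_child (a b : ℕ) (p q : Bool) :
    (2 * a + p.toNat) ^^^ (2 * b + q.toNat) = 2 * (a ^^^ b) + (xor p q).toNat := by
  rw [← Nat.bit_val p a, ← Nat.bit_val q b, ← Nat.bit_val (xor p q) (a ^^^ b)]
  exact Nat.xor_bit p a q b

lemma blk_child (c : ℕ → ℕ → ℝ) (l a b : ℕ) (p q : Bool) :
    blk c l (2 * a + p.toNat) (2 * b + q.toNat) = sub (α := V l) (blk c (l + 1) a b) p q := by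
  funext i j
  cases p <;> cases q <;> simp only [blk, sub, val, Bool.toNat_true, Bool.toNat_false, add_zero,
    Bool.false_eq_true, if_false, if_true, pow_succ] <;> ring_nf

lemma lev_le (c₀ c₁ c₂ : ℕ → ℕ → ℝ) (l M : ℕ) :
    lev c₀ c₁ c₂ (l + 1) M ≤ 8 * (qLev c₀ c₁ c₂ l (M + 1) - qLev c₀ c₁ c₂ (l + 1) M) := by
  have hchild : qLev c₀ c₁ c₂ l (M + 1) = ((2 : ℝ) ^ l)⁻¹ *
      ∑ a ∈ Finset.range (2 ^ M), ∑ b ∈ Finset.range (2 ^ M), ∑ p : Bool, ∑ q : Bool,
        qTri (sub (α := V l) (blk c₀ (l + 1) a b) p q)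
          (sub (α := V l) (blk c₁ (l + 1) b (a ^^^ b)) q (xor p q))
          (sub (α := V l) (blk c₂ (l + 1) (a ^^^ b) a) (xor p q) p) := by
    unfold qLev
    congr 1
    rw [pow_succ', sum_range_double]
    apply Finset.sum_congr rfl
    intro a _
    simp_rw [sum_range_double (2 ^ M)]
    rw [Finset.sum_comm]
    apply Finset.sum_congr rfl
    intro b _
    refine Finset.sum_congr rfl fun p _ => Finset.sum_congr rfl fun q _ => ?_
    rw [xor_child, blk_child, blk_child, blk_child]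
  rw [hchild]
  unfold lev qLev
  rw [pow_succ, mul_inv, mul_sub, mul_assoc ((2 : ℝ) ^ l)⁻¹, mul_assoc ((2 : ℝ) ^ l)⁻¹,
    ← mul_sub (8 : ℝ), ← mul_sub ((2 : ℝ) ^ l)⁻¹, mul_left_comm (8 : ℝ)]
  refine mul_le_mul_of_nonneg_left ?_ (by positivity)
  simp only [Finset.mul_sum, ← Finset.sum_sub_distrib]
  refine Finset.sum_le_sum fun a _ => Finset.sum_le_sum fun b _ => ?_
  have := step (α := V l) (blk c₀ (l + 1) a b) (blk c₁ (l + 1) b (a ^^^ b))
    (blk c₂ (l + 1) (a ^^^ b) a)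
  have e : |term c₀ c₁ c₂ (l + 1) a b| ≤ 8 * (2 * (∑ p : Bool, ∑ q : Bool,
      qTri (sub (α := V l) (blk c₀ (l + 1) a b) p q)
        (sub (α := V l) (blk c₁ (l + 1) b (a ^^^ b)) q (xor p q))
        (sub (α := V l) (blk c₂ (l + 1) (a ^^^ b) a) (xor p q) p))
      - qTri (blk c₀ (l + 1) a b) (blk c₁ (l + 1) b (a ^^^ b)) (blk c₂ (l + 1) (a ^^^ b) a)) := this
  linarith

lemma levels_le (c₀ c₁ c₂ : ℕ → ℕ → ℝ) (M : ℕ) : ∀ l,
    ∑ j ∈ Finset.range M, lev c₀ c₁ c₂ (l + j + 1) (M - (j + 1)) ≤ 8 * qLev c₀ c₁ c₂ l M := by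
  induction M with
  | zero => intro l; simpa using qLev_nonneg c₀ c₁ c₂ l 0
  | succ M ih =>
    intro l
    rw [Finset.sum_range_succ']
    have h1 := lev_le c₀ c₁ c₂ l M
    have h2 := ih (l + 1)
    have e : ∑ j ∈ Finset.range M, lev c₀ c₁ c₂ (l + (j + 1) + 1) (M + 1 - (j + 1 + 1))
        = ∑ j ∈ Finset.range M, lev c₀ c₁ c₂ (l + 1 + j + 1) (M - (j + 1)) := by
      refine Finset.sum_congr rfl fun j _ => ?_
      congr 1 <;> omega
    rw [e]
    simp only [Nat.add_zero, zero_add, Nat.add_sub_cancel]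
    linarith

lemma S3_single (A B : Matrix Unit Unit ℝ) :
    S3 (fromRows A Bᵀ) ≤ 4 * (|A () ()| ^ 3 + |B () ()| ^ 3) := by
  set x := A () ()
  set y := B () ()
  set r := Real.sqrt (x ^ 2 + y ^ 2) with hr
  have hr2 : r ^ 2 = x ^ 2 + y ^ 2 := Real.sq_sqrt (by positivity)
  have hP : Psd (diagonal (fun _ : Unit => r)) := by
    have := psd_conj_diag (1 : Matrix Unit Unit ℝ) (fun _ : Unit => r) (fun _ => Real.sqrt_nonneg _)
    simpa using this
  have e := S3_eq_right (M := fromRows A Bᵀ) hP (by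
    ext i j
    simp [Matrix.mul_apply, Fintype.sum_sum_type, x, y]
    linarith [hr2, sq (A () ()), sq (B () ()), sq r])
  rw [← e]
  simp only [diagonal_mul_diagonal, trace_diagonal, Finset.univ_unique, Finset.sum_singleton]
  have hle : r ≤ |x| + |y| := by
    rw [hr, Real.sqrt_le_iff]
    exact ⟨by positivity, by nlinarith [sq_abs x, sq_abs y, abs_nonneg x, abs_nonneg y]⟩
  have h0 : 0 ≤ r := Real.sqrt_nonneg _
  calc r * r * r = r ^ 3 := by ring
    _ ≤ (|x| + |y|) ^ 3 := pow_le_pow_left₀ h0 hle 3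
    _ ≤ 4 * (|x| ^ 3 + |y| ^ 3) := by
      nlinarith [mul_nonneg (add_nonneg (abs_nonneg x) (abs_nonneg y)) (sq_nonneg (|x| - |y|))]

lemma xor_sum (m b : ℕ) (hb : b < 2 ^ m) (f : ℕ → ℝ) :
    ∑ a ∈ Finset.range (2 ^ m), f (a ^^^ b) = ∑ a ∈ Finset.range (2 ^ m), f a := by
  refine Finset.sum_nbij' (fun a => a ^^^ b) (fun a => a ^^^ b) ?_ ?_ ?_ ?_ ?_
  · intro a ha
    exact Finset.mem_range.mpr (Nat.xor_lt_two_pow (Finset.mem_range.mp ha) hb)
  · intro a ha
    exact Finset.mem_range.mpr (Nat.xor_lt_two_pow (Finset.mem_range.mp ha) hb)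
  all_goals intros <;> simp

/-- the finite bound -/
lemma finite_bound (c₀ c₁ c₂ : ℕ → ℕ → ℝ) (m : ℕ) :
    ∑ j ∈ Finset.range m, lev c₀ c₁ c₂ (j + 1) (m - (j + 1)) ≤
      64 * ((∑ a ∈ Finset.range (2 ^ m), ∑ b ∈ Finset.range (2 ^ m), |c₀ a b| ^ 3)
        + (∑ a ∈ Finset.range (2 ^ m), ∑ b ∈ Finset.range (2 ^ m), |c₁ a b| ^ 3)
        + ∑ a ∈ Finset.range (2 ^ m), ∑ b ∈ Finset.range (2 ^ m), |c₂ a b| ^ 3) := by
  have h := levels_le c₀ c₁ c₂ m 0
  simp only [zero_add] at h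
  refine h.trans ?_
  have hq : qLev c₀ c₁ c₂ 0 m ≤ ∑ a ∈ Finset.range (2 ^ m), ∑ b ∈ Finset.range (2 ^ m),
      8 * (|c₀ a b| ^ 3 + |c₁ b (a ^^^ b)| ^ 3 + |c₂ (a ^^^ b) a| ^ 3) := by
    rw [qLev, pow_zero, inv_one, one_mul]
    refine Finset.sum_le_sum fun a _ => Finset.sum_le_sum fun b _ => ?_
    have h1 := S3_single (blk c₀ 0 a b) (blk c₁ 0 b (a ^^^ b))
    have h2 := S3_single (blk c₁ 0 b (a ^^^ b)) (blk c₂ 0 (a ^^^ b) a)
    have h3 := S3_single (blk c₂ 0 (a ^^^ b) a) (blk c₀ 0 a b)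
    simp only [blk, val, pow_zero, mul_one, add_zero] at h1 h2 h3
    exact (add_le_add (add_le_add h1 h2) h3).trans (le_of_eq (by ring))
  refine (mul_le_mul_of_nonneg_left hq (by norm_num)).trans (le_of_eq ?_)
  simp only [← Finset.mul_sum, Finset.sum_add_distrib]
  have e1 : ∑ a ∈ Finset.range (2 ^ m), ∑ b ∈ Finset.range (2 ^ m), |c₁ b (a ^^^ b)| ^ 3
      = ∑ a ∈ Finset.range (2 ^ m), ∑ b ∈ Finset.range (2 ^ m), |c₁ a b| ^ 3 := by
    rw [Finset.sum_comm]
    exact Finset.sum_congr rfl fun b hb =>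
      xor_sum m b (Finset.mem_range.mp hb) (fun a => |c₁ b a| ^ 3)
  have e2 : ∑ a ∈ Finset.range (2 ^ m), ∑ b ∈ Finset.range (2 ^ m), |c₂ (a ^^^ b) a| ^ 3
      = ∑ a ∈ Finset.range (2 ^ m), ∑ b ∈ Finset.range (2 ^ m), |c₂ a b| ^ 3 := by
    conv_rhs => rw [Finset.sum_comm]
    refine Finset.sum_congr rfl fun a ha => ?_
    simp_rw [Nat.xor_comm a]
    exact xor_sum m a (Finset.mem_range.mp ha) (fun x => |c₂ x a| ^ 3)
  rw [e1, e2]
  ring

end Vale.Agent.P075Tri
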