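import Vale.Agent.P075Tri.Pair

/-!
A layer-cake bound for cyclic triple sums with contractive frames (helper file for P075).
-/

open Matrix

set_option linter.unusedSectionVars false

namespace Vale.Agent.P075Tri

variable {n p q r : Type} [Fintype n] [Fintype p] [Fintype q] [Fintype r]
  [DecidableEq n] [DecidableEq p] [DecidableEq q] [DecidableEq r]

/-- operator norm at most one -/
def Contr (K : Matrix p q ℝ) : Prop := ∀ x : q → ℝ, (K *ᵥ x) ⬝ᵥ (K *ᵥ x) ≤ x ⬝ᵥ x

lemma Contr.mul {K : Matrix p q ℝ} {L : Matrix q r ℝ} (hK : Contr K) (hL : Contr L) :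
    Contr (K * L) := fun x => by
  rw [← mulVec_mulVec]
  exact (hK _).trans (hL x)

lemma contr_of_gram_le {K : Matrix p q ℝ} {e : q → ℝ} (he : ∀ i, e i ≤ 1)
    (h : Kᵀ * K = diagonal e) : Contr K := fun x => by
  rw [dotProduct_mulVec, ← mulVec_transpose, mulVec_mulVec, h]
  simp only [dotProduct, mulVec_diagonal]
  apply Finset.sum_le_sum
  intro i _
  nlinarith [mul_self_nonneg (x i), he i]

lemma contr_sign (h : n → ℝ) (hh : ∀ i, h i * h i = 1) : Contr (diagonal h) :=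
  contr_of_gram_le (e := fun _ => (1 : ℝ)) (fun _ => le_rfl)
    (by rw [diagonal_transpose, diagonal_mul_diagonal]; simp_rw [hh])

/-- cyclic triple sum -/
def tri (a : n → ℝ) (b : p → ℝ) (c : q → ℝ) (K : Matrix n p ℝ) (K' : Matrix p q ℝ)
    (K'' : Matrix q n ℝ) : ℝ :=
  ∑ i, ∑ j, ∑ l, a i * K i j * (b j * K' j l) * (c l * K'' l i)

lemma tri_cycle (a : n → ℝ) (b : p → ℝ) (c : q → ℝ) (K : Matrix n p ℝ) (K' : Matrix p q ℝ)
    (K'' : Matrix q n ℝ) : tri a b c K K' K'' = tri b c a K' K'' K := by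
  unfold tri
  rw [Finset.sum_comm]
  apply Finset.sum_congr rfl
  intro j _
  rw [Finset.sum_comm]
  apply Finset.sum_congr rfl
  intro l _
  apply Finset.sum_congr rfl
  intro i _
  ring

/-- pair weight -/
def pw (K : Matrix n p ℝ) (f : n → p → ℝ) : ℝ := ∑ i, ∑ j, K i j ^ 2 * f i j

lemma bilin_bound {K : Matrix p q ℝ} (hK : Contr K) (u : p → ℝ) (w : q → ℝ) :
    |u ⬝ᵥ (K *ᵥ w)| ≤ (u ⬝ᵥ u + w ⬝ᵥ w) / 2 := by
  have h := hK w
  have e1 : 0 ≤ (u - K *ᵥ w) ⬝ᵥ (u - K *ᵥ w) :=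
    Finset.sum_nonneg fun i _ => mul_self_nonneg _
  have e2 : 0 ≤ (u + K *ᵥ w) ⬝ᵥ (u + K *ᵥ w) :=
    Finset.sum_nonneg fun i _ => mul_self_nonneg _
  simp only [sub_dotProduct, dotProduct_sub, add_dotProduct, dotProduct_add,
    dotProduct_comm (K *ᵥ w) u] at e1 e2
  rw [abs_le]
  constructor <;> linarith

lemma tri_first (a : n → ℝ) (b : p → ℝ) (c : q → ℝ) (K : Matrix n p ℝ) {K' : Matrix p q ℝ}
    (hK' : Contr K') (K'' : Matrix q n ℝ) :
    |tri a b c K K' K''| ≤
      (pw K (fun i j => |a i| * b j ^ 2) + pw K'' (fun l i => |a i| * c l ^ 2)) / 2 := by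
  have e : tri a b c K K' K''
      = ∑ i, a i * ((fun j => K i j * b j) ⬝ᵥ (K' *ᵥ (fun l => c l * K'' l i))) := by
    simp only [tri, dotProduct, mulVec, Finset.mul_sum]
    apply Finset.sum_congr rfl
    intro i _
    apply Finset.sum_congr rfl
    intro j _
    apply Finset.sum_congr rfl
    intro l _
    ring
  rw [e]
  refine (Finset.abs_sum_le_sum_abs _ _).trans ?_
  have hb : ∀ i, |a i * ((fun j => K i j * b j) ⬝ᵥ (K' *ᵥ (fun l => c l * K'' l i)))| ≤
      ((∑ j, K i j ^ 2 * (|a i| * b j ^ 2)) + ∑ l, K'' l i ^ 2 * (|a i| * c l ^ 2)) / 2 := by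
    intro i
    rw [abs_mul]
    refine (mul_le_mul_of_nonneg_left (bilin_bound hK' _ _) (abs_nonneg _)).trans (le_of_eq ?_)
    simp only [dotProduct, add_div, mul_add, Finset.sum_div, Finset.mul_sum]
    congr 1 <;> exact Finset.sum_congr rfl fun j _ => by ring
  refine (Finset.sum_le_sum fun i _ => hb i).trans (le_of_eq ?_)
  rw [← Finset.sum_div, Finset.sum_add_distrib, pw, pw, Finset.sum_comm (γ := q)]

/-- potential of a pair of singular values -/
def g (a b : ℝ) : ℝ := (a + b) * min a b ^ 2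

lemma g_step {P M x y : ℝ} (hP : 0 ≤ P) (hPM : P ≤ M) (hx0 : 0 ≤ x) (hx : x ≤ P ∨ x = M)
    (hy0 : 0 ≤ y) (hy : y ≤ P ∨ y = M) :
    (x - min x P) * y ^ 2 + (y - min y P) * x ^ 2 ≤ g x y - g (min x P) (min y P) := by
  unfold g
  rcases hx with hx | hx <;> rcases hy with hy | hy
  · simp [min_eq_left hx, min_eq_left hy]
  · subst hy
    have hxy : x ≤ y := hx.trans hPM
    rw [min_eq_left hx, min_eq_right hPM, min_eq_left hxy, min_eq_left hx]
    nlinarith
  · subst hx
    have hyx : y ≤ x := hy.trans hPM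
    rw [min_eq_left hy, min_eq_right hPM, min_eq_right hyx, min_eq_right hy]
    nlinarith
  · subst hx hy
    rw [min_eq_right hPM, min_self, min_self]
    nlinarith [mul_nonneg (mul_nonneg (sub_nonneg.mpr hPM) hP) (add_nonneg hx0 hP),
      mul_nonneg hP hP, sq_nonneg (P - P)]

lemma g_le {a b : ℝ} (ha : 0 ≤ a) (hb : 0 ≤ b) :
    g a b ≤ 4 * (a ^ 2 * b ^ 2 / (a + b)) := by
  unfold g
  rcases eq_or_lt_of_le (add_nonneg ha hb) with h | h
  · simp [← h]
  · rw [← mul_div_assoc, le_div_iff₀ h]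
    rcases le_total a b with hab | hab
    · rw [min_eq_left hab]
      nlinarith [mul_nonneg (mul_self_nonneg a) (mul_nonneg (sub_nonneg.mpr hab)
        (by linarith : 0 ≤ 3 * b + a))]
    · rw [min_eq_right hab]
      nlinarith [mul_nonneg (mul_self_nonneg b) (mul_nonneg (sub_nonneg.mpr hab)
        (by linarith : 0 ≤ 3 * a + b))]

lemma pw_mono (K : Matrix n p ℝ) {f f' : n → p → ℝ} (h : ∀ i j, f i j ≤ f' i j) :
    pw K f ≤ pw K f' :=
  Finset.sum_le_sum fun i _ => Finset.sum_le_sum fun j _ =>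
    mul_le_mul_of_nonneg_left (h i j) (sq_nonneg _)

lemma pw_add (K : Matrix n p ℝ) (f f' : n → p → ℝ) :
    pw K (fun i j => f i j + f' i j) = pw K f + pw K f' := by
  simp [pw, mul_add, Finset.sum_add_distrib]

lemma pw_sub (K : Matrix n p ℝ) (f f' : n → p → ℝ) :
    pw K (fun i j => f i j - f' i j) = pw K f - pw K f' := by
  simp [pw, mul_sub, Finset.sum_sub_distrib]

lemma tri_layer {K : Matrix n p ℝ} {K' : Matrix p q ℝ} {K'' : Matrix q n ℝ} (hK : Contr K)
    (hK' : Contr K') (hK'' : Contr K'') (V : Finset ℝ) :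
    (∀ v ∈ V, 0 < v) → ∀ (a : n → ℝ) (b : p → ℝ) (c : q → ℝ),
      (∀ i, a i = 0 ∨ a i ∈ V) → (∀ i, b i = 0 ∨ b i ∈ V) → (∀ i, c i = 0 ∨ c i ∈ V) →
      |tri a b c K K' K''| ≤
        (pw K (fun i j => g (a i) (b j)) + pw K' (fun i j => g (b i) (c j))
          + pw K'' (fun i j => g (c i) (a j))) / 2 := by
  induction V using Finset.induction_on_max with
  | empty =>
    intro _ a b c ha hb hc
    have h1 : ∀ i, a i = 0 := fun i => by simpa using ha i
    have h2 : ∀ i, b i = 0 := fun i => by simpa using hb i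
    have h3 : ∀ i, c i = 0 := fun i => by simpa using hc i
    simp [tri, pw, g, h1, h2, h3]
  | insert M s hlt ih =>
    intro hpos a b c ha hb hc
    have hM : 0 < M := hpos M (Finset.mem_insert_self _ _)
    have hposs : ∀ v ∈ s, 0 < v := fun v hv => hpos v (Finset.mem_insert_of_mem hv)
    obtain ⟨P, hP0, hPM, hPmem, hPle⟩ : ∃ P, 0 ≤ P ∧ P ≤ M ∧ (P = 0 ∨ P ∈ s) ∧ ∀ v ∈ s, v ≤ P := by
      rcases s.eq_empty_or_nonempty with rfl | hne
      · exact ⟨0, le_rfl, hM.le, Or.inl rfl, by simp⟩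
      · exact ⟨s.max' hne, (hposs _ (s.max'_mem hne)).le, (hlt _ (s.max'_mem hne)).le,
          Or.inr (s.max'_mem hne), fun v hv => s.le_max' v hv⟩
    have cls : ∀ x : ℝ, (x = 0 ∨ x ∈ insert M s) →
        0 ≤ x ∧ (x ≤ P ∨ x = M) ∧ (min x P = 0 ∨ min x P ∈ s) := by
      intro x hx
      rcases hx with rfl | hx
      · exact ⟨le_rfl, Or.inl hP0, Or.inl (min_eq_left hP0)⟩
      rcases Finset.mem_insert.mp hx with rfl | hx
      · exact ⟨hM.le, Or.inr rfl, by rw [min_eq_right hPM]; exact hPmem⟩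
      · exact ⟨(hposs x hx).le, Or.inl (hPle x hx),
          Or.inr (by rw [min_eq_left (hPle x hx)]; exact hx)⟩
    set a' := fun i => min (a i) P with ha'
    set b' := fun i => min (b i) P with hb'
    set c' := fun i => min (c i) P with hc'
    have h0 := ih hposs a' b' c' (fun i => (cls _ (ha i)).2.2) (fun i => (cls _ (hb i)).2.2)
      (fun i => (cls _ (hc i)).2.2)
    have split : tri a b c K K' K'' = tri (a - a') b c K K' K''
        + tri (b - b') c a' K' K'' K + tri (c - c') a' b' K'' K K' + tri a' b' c' K K' K'' := by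
      rw [tri_cycle (c - c') a' b' K'' K K', ← tri_cycle a' (b - b') c K K' K'']
      simp only [tri, Pi.sub_apply, ← Finset.sum_add_distrib]
      exact Finset.sum_congr rfl fun i _ => Finset.sum_congr rfl fun j _ =>
        Finset.sum_congr rfl fun l _ => by ring
    have t1 := tri_first (a - a') b c K hK' K''
    have t2 := tri_first (b - b') c a' K' hK'' K
    have t3 := tri_first (c - c') a' b' K'' hK K'
    have da : ∀ i, |(a - a') i| = a i - min (a i) P := fun i =>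
      abs_of_nonneg (sub_nonneg.mpr (min_le_left _ _))
    have db : ∀ i, |(b - b') i| = b i - min (b i) P := fun i =>
      abs_of_nonneg (sub_nonneg.mpr (min_le_left _ _))
    have dc : ∀ i, |(c - c') i| = c i - min (c i) P := fun i =>
      abs_of_nonneg (sub_nonneg.mpr (min_le_left _ _))
    have hmin : ∀ x : ℝ, (x = 0 ∨ x ∈ insert M s) → 0 ≤ min x P ∧ min x P ^ 2 ≤ x ^ 2 := by
      intro x hx
      have h0 := (cls x hx).1
      exact ⟨le_min h0 hP0, pow_le_pow_left₀ (le_min h0 hP0) (min_le_left _ _) 2⟩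
    have wK : pw K (fun i j => |(a - a') i| * b j ^ 2) + pw K (fun i j => |(b - b') j| * a' i ^ 2)
        ≤ pw K (fun i j => g (a i) (b j)) - pw K (fun i j => g (a' i) (b' j)) := by
      rw [← pw_add, ← pw_sub]
      refine pw_mono K fun i j => ?_
      obtain ⟨x0, hx, -⟩ := cls _ (ha i)
      obtain ⟨y0, hy, -⟩ := cls _ (hb j)
      refine le_trans ?_ (g_step hP0 hPM x0 hx y0 hy)
      rw [da, db]
      exact add_le_add le_rfl (mul_le_mul_of_nonneg_left (hmin _ (ha i)).2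
        (sub_nonneg.mpr (min_le_left _ _)))
    have wK' : pw K' (fun i j => |(b - b') i| * c j ^ 2) + pw K' (fun i j => |(c - c') j| * b' i ^ 2)
        ≤ pw K' (fun i j => g (b i) (c j)) - pw K' (fun i j => g (b' i) (c' j)) := by
      rw [← pw_add, ← pw_sub]
      refine pw_mono K' fun i j => ?_
      obtain ⟨x0, hx, -⟩ := cls _ (hb i)
      obtain ⟨y0, hy, -⟩ := cls _ (hc j)
      refine le_trans ?_ (g_step hP0 hPM x0 hx y0 hy)
      rw [db, dc]
      exact add_le_add le_rfl (mul_le_mul_of_nonneg_left (hmin _ (hb i)).2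
        (sub_nonneg.mpr (min_le_left _ _)))
    have wK'' : pw K'' (fun i j => |(c - c') i| * a' j ^ 2)
          + pw K'' (fun i j => |(a - a') j| * c i ^ 2)
        ≤ pw K'' (fun i j => g (c i) (a j)) - pw K'' (fun i j => g (c' i) (a' j)) := by
      rw [← pw_add, ← pw_sub]
      refine pw_mono K'' fun i j => ?_
      obtain ⟨x0, hx, -⟩ := cls _ (hc i)
      obtain ⟨y0, hy, -⟩ := cls _ (ha j)
      refine le_trans ?_ (g_step hP0 hPM x0 hx y0 hy)
      rw [dc, da]
      exact add_le_add (mul_le_mul_of_nonneg_left (hmin _ (ha j)).2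
        (sub_nonneg.mpr (min_le_left _ _))) le_rfl
    rw [split]
    have := abs_add_le (tri (a - a') b c K K' K'' + tri (b - b') c a' K' K'' K
        + tri (c - c') a' b' K'' K K') (tri a' b' c' K K' K'')
    have := abs_add_three (tri (a - a') b c K K' K'') (tri (b - b') c a' K' K'' K)
        (tri (c - c') a' b' K'' K K')
    linarith

lemma pw_g_le (K : Matrix n p ℝ) (a : n → ℝ) (b : p → ℝ) (ha : ∀ i, 0 ≤ a i)
    (hb : ∀ j, 0 ≤ b j) : pw K (fun i j => g (a i) (b j)) ≤ 4 * delta K a b := by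
  refine (pw_mono K (f' := fun i j => 4 * (a i ^ 2 * b j ^ 2 / (a i + b j)))
    fun i j => g_le (ha i) (hb j)).trans (le_of_eq ?_)
  simp only [pw, delta, Finset.mul_sum]
  exact Finset.sum_congr rfl fun i _ => Finset.sum_congr rfl fun j _ => by ring

lemma trace_three {m₀ m₁ m₂ : Type} [Fintype m₀] [Fintype m₁] [Fintype m₂] [DecidableEq m₀]
    [DecidableEq m₁] [DecidableEq m₂] (A₀ : Matrix m₀ m₁ ℝ) (A₁ : Matrix m₁ m₂ ℝ)
    (A₂ : Matrix m₂ m₀ ℝ) (h₀ : m₀ → ℝ) (h₁ : m₁ → ℝ) (h₂ : m₂ → ℝ)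
    (e₀ : ∀ i, h₀ i * h₀ i = 1) (e₁ : ∀ i, h₁ i * h₁ i = 1) (e₂ : ∀ i, h₂ i * h₂ i = 1) :
    |trace (A₀ * diagonal h₁ * A₁ * diagonal h₂ * A₂ * diagonal h₀)| ≤ 2 *
      (delta ((svd A₀).Vᵀ * diagonal h₁ * (svd A₁).W) (svd A₀).a (svd A₁).a
        + delta ((svd A₁).Vᵀ * diagonal h₂ * (svd A₂).W) (svd A₁).a (svd A₂).a
        + delta ((svd A₂).Vᵀ * diagonal h₀ * (svd A₀).W) (svd A₂).a (svd A₀).a) := by
  set d₀ := svd A₀
  set d₁ := svd A₁
  set d₂ := svd A₂
  set K := d₀.Vᵀ * diagonal h₁ * d₁.W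
  set K' := d₁.Vᵀ * diagonal h₂ * d₂.W
  set K'' := d₂.Vᵀ * diagonal h₀ * d₀.W
  have hK : Contr K := ((contr_of_gram_le (e := fun _ => (1 : ℝ)) (fun _ => le_rfl)
    (by rw [transpose_transpose, d₀.V_right]; exact diagonal_one.symm)).mul
      (contr_sign h₁ e₁)).mul (contr_of_gram_le d₁.e_le d₁.W_left)
  have hK' : Contr K' := ((contr_of_gram_le (e := fun _ => (1 : ℝ)) (fun _ => le_rfl)
    (by rw [transpose_transpose, d₁.V_right]; exact diagonal_one.symm)).mul
      (contr_sign h₂ e₂)).mul (contr_of_gram_le d₂.e_le d₂.W_left)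
  have hK'' : Contr K'' := ((contr_of_gram_le (e := fun _ => (1 : ℝ)) (fun _ => le_rfl)
    (by rw [transpose_transpose, d₂.V_right]; exact diagonal_one.symm)).mul
      (contr_sign h₀ e₀)).mul (contr_of_gram_le d₀.e_le d₀.W_left)
  have e : trace (A₀ * diagonal h₁ * A₁ * diagonal h₂ * A₂ * diagonal h₀)
      = tri d₀.a d₁.a d₂.a K K' K'' := by
    have : trace (A₀ * diagonal h₁ * A₁ * diagonal h₂ * A₂ * diagonal h₀)
        = trace (diagonal d₀.a * K * (diagonal d₁.a * K' * (diagonal d₂.a * K''))) := by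
      conv_lhs => rw [d₀.fac, d₁.fac, d₂.fac]
      simp only [K, K', K'', Matrix.mul_assoc]
      rw [trace_mul_comm]
      simp only [Matrix.mul_assoc]
    rw [this]
    simp only [trace, Matrix.diag, Matrix.mul_assoc, diagonal_mul, tri]
    apply Finset.sum_congr rfl
    intro i _
    rw [Matrix.mul_apply, Finset.mul_sum]
    apply Finset.sum_congr rfl
    intro j _
    rw [diagonal_mul, Matrix.mul_apply, Finset.mul_sum, Finset.mul_sum, Finset.mul_sum]
    apply Finset.sum_congr rfl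
    intro l _
    rw [diagonal_mul]
    ring
  rw [e]
  classical
  set V : Finset ℝ := ((Finset.univ.image d₀.a) ∪ (Finset.univ.image d₁.a)
    ∪ (Finset.univ.image d₂.a)).filter (fun x => 0 < x) with hV
  have hmem : ∀ x : ℝ, 0 ≤ x → x ∈ (Finset.univ.image d₀.a) ∪ (Finset.univ.image d₁.a)
      ∪ (Finset.univ.image d₂.a) → x = 0 ∨ x ∈ V := by
    intro x hx hm
    rcases hx.lt_or_eq with h | h
    · exact Or.inr (Finset.mem_filter.mpr ⟨hm, h⟩)
    · exact Or.inl h.symm
  have hl := tri_layer hK hK' hK'' V (fun v hv => (Finset.mem_filter.mp hv).2) d₀.a d₁.a d₂.a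
    (fun i => hmem _ (d₀.a_nonneg i) (by simp))
    (fun i => hmem _ (d₁.a_nonneg i) (by simp))
    (fun i => hmem _ (d₂.a_nonneg i) (by simp))
  have := pw_g_le K d₀.a d₁.a d₀.a_nonneg d₁.a_nonneg
  have := pw_g_le K' d₁.a d₂.a d₁.a_nonneg d₂.a_nonneg
  have := pw_g_le K'' d₂.a d₀.a d₂.a_nonneg d₀.a_nonneg
  linarith

end Vale.Agent.P075Tri
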